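import Mathlib

/-! Rank lemmas for row 327. -/

set_option autoImplicit false

namespace Crest.Agent.R327

open Matrix

theorem rank_normal {E : Type*} [Field E] {m : Type*} [Fintype m] [DecidableEq m] {a b : ℕ}
    (e : m ≃ Fin a ⊕ Fin b) :
    ((fromBlocks (1 : Matrix (Fin a) (Fin a) E) (0 : Matrix (Fin a) (Fin b) E)
      (0 : Matrix (Fin b) (Fin a) E) (0 : Matrix (Fin b) (Fin b) E)).submatrix e e).rank = a := by
  classical
  rw [rank_submatrix, ← diagonal_one, ← diagonal_zero, fromBlocks_diagonal, rank_diagonal]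
  rw [Fintype.card_subtype]
  have : (Finset.univ.filter fun x : Fin a ⊕ Fin b =>
      Sum.elim (fun _ : Fin a => (1 : E)) (fun _ : Fin b => (0 : E)) x ≠ 0) =
      Finset.univ.map ⟨Sum.inl, Sum.inl_injective⟩ := by
    ext x
    rcases x with x | x <;> simp
  rw [this]
  simp

theorem rank_map_eq {F E : Type*} [Field F] [Field E] (φ : F →+* E) {m : Type*} [Fintype m]
    [DecidableEq m] (M : Matrix m m F) : (M.map φ).rank = M.rank := by
  obtain ⟨V, U, e, hV, hU, h⟩ := exists_rank_normal_form M
  have hV' : IsUnit (V.map φ).det := by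
    have := (isUnit_iff_isUnit_det _).1 hV
    have h2 := this.map φ
    rwa [RingHom.map_det] at h2
  have hU' : IsUnit (U.map φ).det := by
    have := (isUnit_iff_isUnit_det _).1 hU
    have h2 := this.map φ
    rwa [RingHom.map_det] at h2
  have h' : V.map φ * M.map φ * U.map φ =
      (fromBlocks (1 : Matrix (Fin M.rank) (Fin M.rank) E) 0 0
        (0 : Matrix (Fin (Fintype.card m - M.rank)) (Fin (Fintype.card m - M.rank)) E)).submatrix
          e e := by
    rw [← Matrix.map_mul, ← Matrix.map_mul, h]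
    ext i j
    simp only [map_apply, submatrix_apply]
    rcases e i with x | x <;> rcases e j with y | y <;> simp [one_apply]
  rw [← rank_mul_eq_right_of_isUnit_det (V.map φ) (M.map φ) hV',
    ← rank_mul_eq_left_of_isUnit_det (U.map φ) _ hU', h', rank_normal]

theorem rank_add_le' {K : Type*} [Field K] {m n : Type*} [Fintype m] [Fintype n]
    (A B : Matrix m n K) : (A + B).rank ≤ A.rank + B.rank := by
  unfold Matrix.rank
  rw [mulVecLin_add]
  have h : LinearMap.range (A.mulVecLin + B.mulVecLin) ≤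
      LinearMap.range A.mulVecLin ⊔ LinearMap.range B.mulVecLin := by
    rintro _ ⟨v, rfl⟩
    exact Submodule.add_mem_sup ⟨v, rfl⟩ ⟨v, rfl⟩
  exact (Submodule.finrank_mono h).trans (Submodule.finrank_add_le_finrank_add_finrank _ _)

theorem rank_smul_le' {K : Type*} [Field K] {m n : Type*} [Fintype m] [Fintype n]
    (c : K) (A : Matrix m n K) : (c • A).rank ≤ A.rank := by
  by_cases hc : c = 0
  · simp [hc]
  · rw [rank_smul_of_mem_nonZeroDivisors A (mem_nonZeroDivisors_of_ne_zero hc)]

theorem rank_le_card_of_factor {K : Type*} [Field K] {m n o : Type*} [Fintype m] [Fintype n]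
    [Fintype o] (M : Matrix m n K) (A : Matrix m o K) (B : Matrix o n K) (s : Finset o)
    (h : ∀ R C, M R C = ∑ D ∈ s, A R D * B D C) : M.rank ≤ s.card := by
  classical
  let B' : Matrix o n K := fun D C => if D ∈ s then B D C else 0
  have hM : M = A * B' := by
    ext R C
    rw [h, mul_apply]
    simp only [B', mul_ite, mul_zero]
    rw [Finset.sum_ite_mem, Finset.univ_inter]
  rw [hM]
  refine (rank_mul_le_right _ _).trans (rank_le_card_of_support_subset B' s ?_)
  intro D hD
  by_contra hs
  apply hD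
  ext C
  have hs' : D ∉ s := by simpa using hs
  simp [B', Matrix.row, hs']

theorem trace_sq_le_rank_mul {m : Type*} [Fintype m] [DecidableEq m] (G : Matrix m m ℝ)
    (hG : G.IsHermitian) : G.trace ^ 2 ≤ G.rank * (G * G).trace := by
  classical
  have h1 : G.trace = ∑ i, hG.eigenvalues i := by
    simpa using hG.trace_eq_sum_eigenvalues
  have h2 : (G * G).trace = ∑ i, hG.eigenvalues i ^ 2 := by
    have hs := hG.spectral_theorem
    set U := hG.eigenvectorUnitary
    set D : Matrix m m ℝ := diagonal (RCLike.ofReal ∘ hG.eigenvalues) with hD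
    have hGU : G = (U : Matrix m m ℝ) * D * star (U : Matrix m m ℝ) := by
      conv_lhs => rw [hs]
      simp [Unitary.conjStarAlgAut_apply, D]
    have hUU : star (U : Matrix m m ℝ) * (U : Matrix m m ℝ) = 1 := Unitary.coe_star_mul_self U
    have : G * G = (U : Matrix m m ℝ) * (D * D) * star (U : Matrix m m ℝ) := by
      conv_lhs => rw [hGU]
      calc (U : Matrix m m ℝ) * D * star (U : Matrix m m ℝ) *
            ((U : Matrix m m ℝ) * D * star (U : Matrix m m ℝ))
          = (U : Matrix m m ℝ) * D * (star (U : Matrix m m ℝ) * (U : Matrix m m ℝ)) * D *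
              star (U : Matrix m m ℝ) := by simp only [Matrix.mul_assoc]
        _ = _ := by rw [hUU]; simp only [Matrix.mul_assoc, Matrix.one_mul]
    rw [this, trace_mul_comm, ← Matrix.mul_assoc, hUU, Matrix.one_mul, hD, diagonal_mul_diagonal,
      trace_diagonal]
    simp [sq]
  rw [h1, h2, hG.rank_eq_card_non_zero_eigs, Fintype.card_subtype]
  set s := Finset.univ.filter fun i => hG.eigenvalues i ≠ 0
  have e1 : ∑ i, hG.eigenvalues i = ∑ i ∈ s, hG.eigenvalues i := by
    rw [Finset.sum_filter_ne_zero]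
  have e2 : ∑ i ∈ s, hG.eigenvalues i ^ 2 ≤ ∑ i, hG.eigenvalues i ^ 2 :=
    Finset.sum_le_sum_of_subset_of_nonneg (Finset.filter_subset _ _) fun _ _ _ => sq_nonneg _
  rw [e1]
  calc (∑ i ∈ s, hG.eigenvalues i) ^ 2 ≤ s.card * ∑ i ∈ s, hG.eigenvalues i ^ 2 :=
        sq_sum_le_card_mul_sum_sq
    _ ≤ _ := by gcongr

theorem frob_sq_le {m : Type*} [Fintype m] [DecidableEq m] (M : Matrix m m ℝ) :
    (∑ C, ∑ R, M R C ^ 2) ^ 2 ≤ M.rank * ∑ C, ∑ C', (∑ R, M R C * M R C') ^ 2 := by
  have hG : (Mᵀ * M).IsHermitian := by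
    have := isHermitian_conjTranspose_mul_self M
    simpa using this
  have h := trace_sq_le_rank_mul (Mᵀ * M) hG
  rw [rank_transpose_mul_self] at h
  have e1 : (Mᵀ * M).trace = ∑ C, ∑ R, M R C ^ 2 := by
    simp [trace, mul_apply, sq]
  have e2 : (Mᵀ * M * (Mᵀ * M)).trace = ∑ C, ∑ C', (∑ R, M R C * M R C') ^ 2 := by
    simp only [trace, diag_apply, mul_apply (M := Mᵀ * M)]
    refine Finset.sum_congr rfl fun C _ => Finset.sum_congr rfl fun C' _ => ?_
    simp only [mul_apply, transpose_apply, sq]
    congr 1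
    exact Finset.sum_congr rfl fun R _ => mul_comm _ _
  rwa [e1, e2] at h

end Crest.Agent.R327
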