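import Mathlib
import Crest.Agent.R327.Rank

/-! Multiplication operators on the square-free monomials, charges and the weighted rank
measure used for row 327. -/

set_option autoImplicit false

namespace Crest.Agent.R327

open MvPolynomial Finset

variable {ι : Type*} [Fintype ι] [DecidableEq ι]

/-- The square-free monomial of a Boolean function. -/
noncomputable def toF (C : ι → Bool) : ι →₀ ℕ :=
  Finsupp.equivFunOnFinite.symm fun x => (C x).toNat

omit [DecidableEq ι] in
@[simp] theorem toF_apply (C : ι → Bool) (x : ι) : toF C x = (C x).toNat := rfl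

omit [DecidableEq ι] in
theorem toF_injective : Function.Injective (toF : (ι → Bool) → ι →₀ ℕ) := by
  intro C D h
  funext x
  have := congrArg (fun m : ι →₀ ℕ => m x) h
  simp only [toF_apply] at this
  revert this
  cases C x <;> cases D x <;> simp

omit [DecidableEq ι] in
theorem exists_toF_of_le {m : ι →₀ ℕ} {R : ι → Bool} (h : m ≤ toF R) : ∃ D, toF D = m := by
  refine ⟨fun x => decide (m x = 1), ?_⟩
  ext x
  have h1 : m x ≤ (R x).toNat := h x
  have h2 : (R x).toNat ≤ 1 := Bool.toNat_le _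
  simp only [toF_apply]
  by_cases hx : m x = 1
  · simp [hx]
  · have : m x = 0 := by omega
    simp [this]

section Semiring

variable {K : Type*} [CommSemiring K]

/-- Matrix of multiplication by `f` on square-free monomials (modulo squares). -/
noncomputable def mult (f : MvPolynomial ι K) : Matrix (ι → Bool) (ι → Bool) K :=
  fun R C => coeff (toF R) (f * monomial (toF C) 1)

omit [DecidableEq ι] in
theorem mult_apply (f : MvPolynomial ι K) (R C : ι → Bool) :
    mult f R C = if toF C ≤ toF R then coeff (toF R - toF C) f else 0 := by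
  classical
  unfold mult
  rw [coeff_mul_monomial']
  simp

omit [DecidableEq ι] in
theorem mult_add (f g : MvPolynomial ι K) : mult (f + g) = mult f + mult g := by
  ext R C
  simp [mult, add_mul]

omit [DecidableEq ι] in
theorem mult_smul (c : K) (f : MvPolynomial ι K) : mult (c • f) = c • mult f := by
  ext R C
  simp [mult]

omit [DecidableEq ι] in
theorem mult_zero : mult (0 : MvPolynomial ι K) = 0 := by
  ext R C
  simp [mult]

theorem mult_mul (f g : MvPolynomial ι K) (R C : ι → Bool) :
    mult (f * g) R C = ∑ D, mult f R D * mult g D C := by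
  classical
  have h1 : mult (f * g) R C = coeff (toF R) (f * (g * monomial (toF C) 1)) := by
    simp [mult, mul_assoc]
  rw [h1, coeff_mul]
  have h2 : ∑ D, mult f R D * mult g D C =
      ∑ D ∈ univ.filter (fun D : ι → Bool => toF D ≤ toF R),
        coeff (toF R - toF D) f * coeff (toF D) (g * monomial (toF C) 1) := by
    rw [sum_filter]
    refine sum_congr rfl fun D _ => ?_
    rw [mult_apply f]
    split_ifs <;> simp [mult]
  rw [h2]
  symm
  refine sum_bij (fun D _ => (toF R - toF D, toF D)) ?_ ?_ ?_ ?_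
  · intro D hD
    rw [mem_filter] at hD
    rw [HasAntidiagonal.mem_antidiagonal]
    exact tsub_add_cancel_of_le hD.2
  · intro D _ D' _ h
    exact toF_injective (congrArg Prod.snd h)
  · rintro ⟨a, b⟩ hab
    rw [HasAntidiagonal.mem_antidiagonal] at hab
    simp only at hab
    have hb : b ≤ toF R := by rw [← hab]; exact le_add_self
    obtain ⟨D, rfl⟩ := exists_toF_of_le hb
    refine ⟨D, by simpa using hb, ?_⟩
    rw [← hab]
    simp
  · intro D _
    rfl

end Semiring

/-- The charge of a monomial. -/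
def chg (q : ι → ℤ) (m : ι →₀ ℕ) : ℤ := ∑ x, (m x : ℤ) * q x

omit [DecidableEq ι] in
theorem chg_add (q : ι → ℤ) (a b : ι →₀ ℕ) : chg q (a + b) = chg q a + chg q b := by
  simp [chg, add_mul, sum_add_distrib]

omit [DecidableEq ι] in
@[simp] theorem chg_zero (q : ι → ℤ) : chg q 0 = 0 := by simp [chg]

variable {K : Type*} [Field K]

/-- All monomials have charge at least `r`. -/
def ChGE (q : ι → ℤ) (f : MvPolynomial ι K) (r : ℤ) : Prop := ∀ m ∈ f.support, r ≤ chg q m

/-- All monomials have charge at most `r`. -/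
def ChLE (q : ι → ℤ) (f : MvPolynomial ι K) (r : ℤ) : Prop := ∀ m ∈ f.support, chg q m ≤ r

theorem ChGE.mul {q : ι → ℤ} {f g : MvPolynomial ι K} {r s : ℤ} (hf : ChGE q f r)
    (hg : ChGE q g s) : ChGE q (f * g) (r + s) := by
  intro m hm
  obtain ⟨a, ha, b, hb, rfl⟩ := Finset.mem_add.1 (support_mul f g hm)
  rw [chg_add]
  exact add_le_add (hf a ha) (hg b hb)

theorem ChLE.mul {q : ι → ℤ} {f g : MvPolynomial ι K} {r s : ℤ} (hf : ChLE q f r)
    (hg : ChLE q g s) : ChLE q (f * g) (r + s) := by
  intro m hm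
  obtain ⟨a, ha, b, hb, rfl⟩ := Finset.mem_add.1 (support_mul f g hm)
  rw [chg_add]
  exact add_le_add (hf a ha) (hg b hb)

omit [DecidableEq ι] in
theorem chGE_one (q : ι → ℤ) : ChGE q (1 : MvPolynomial ι K) 0 := by
  classical
  intro m hm
  rw [mem_support_iff, coeff_one] at hm
  have : 0 = m := by
    by_contra h
    simp [h] at hm
  simp [← this]

omit [DecidableEq ι] in
theorem chLE_one (q : ι → ℤ) : ChLE q (1 : MvPolynomial ι K) 0 := by
  classical
  intro m hm
  rw [mem_support_iff, coeff_one] at hm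
  have : 0 = m := by
    by_contra h
    simp [h] at hm
  simp [← this]

/-- The block of the multiplication matrix from charge `β` to charge `β + ε`. -/
noncomputable def blockM {S : Type*} [CommSemiring S] (q : ι → ℤ) (ε β : ℤ)
    (f : MvPolynomial ι S) : Matrix (ι → Bool) (ι → Bool) S :=
  fun R C => if chg q (toF C) = β ∧ chg q (toF R) = β + ε then mult f R C else 0

/-- The weighted rank measure. -/
noncomputable def mu (q : ι → ℤ) (ε : ℤ) (κ : ℝ) (L : ℕ) (f : MvPolynomial ι K) : ℝ :=
  ∑ β ∈ Icc (-(L : ℤ)) L, Real.exp (2 * κ * β) * ((blockM q ε β f).rank : ℝ)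

/-- The partition function. -/
noncomputable def Zp (q : ι → ℤ) (κ : ℝ) : ℝ := ∑ D : ι → Bool, Real.exp (2 * κ * chg q (toF D))

theorem mu_add_le (q : ι → ℤ) (ε : ℤ) (κ : ℝ) (L : ℕ) (f g : MvPolynomial ι K) :
    mu q ε κ L (f + g) ≤ mu q ε κ L f + mu q ε κ L g := by
  unfold mu
  rw [← sum_add_distrib]
  refine sum_le_sum fun β _ => ?_
  rw [← mul_add]
  gcongr
  have : blockM q ε β (f + g) = blockM q ε β f + blockM q ε β g := by
    ext R C
    simp only [blockM, mult_add, Matrix.add_apply]
    split_ifs <;> simp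
  rw [this]
  exact_mod_cast rank_add_le' _ _

theorem mu_smul_le (q : ι → ℤ) (ε : ℤ) (κ : ℝ) (L : ℕ) (c : K) (f : MvPolynomial ι K) :
    mu q ε κ L (c • f) ≤ mu q ε κ L f := by
  unfold mu
  refine sum_le_sum fun β _ => ?_
  gcongr
  have : blockM q ε β (c • f) = c • blockM q ε β f := by
    ext R C
    simp only [blockM, mult_smul, Matrix.smul_apply]
    split_ifs <;> simp
  rw [this]
  exact_mod_cast rank_smul_le' _ _

theorem mu_zero (q : ι → ℤ) (ε : ℤ) (κ : ℝ) (L : ℕ) :
    mu q ε κ L (0 : MvPolynomial ι K) = 0 := by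
  unfold mu
  refine sum_eq_zero fun β _ => ?_
  have : blockM q ε β (0 : MvPolynomial ι K) = 0 := by
    ext R C
    simp [blockM, mult_zero]
  simp [this]

omit [DecidableEq ι] in
theorem chg_of_mult_ne_zero {S : Type*} [CommSemiring S] (q : ι → ℤ) {f : MvPolynomial ι S}
    {R C : ι → Bool} (h : mult f R C ≠ 0) :
    ∃ m ∈ f.support, chg q (toF R) = chg q (toF C) + chg q m := by
  rw [mult_apply] at h
  by_cases hle : toF C ≤ toF R
  · rw [if_pos hle] at h
    refine ⟨toF R - toF C, mem_support_iff.2 h, ?_⟩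
    rw [← chg_add, add_tsub_cancel_of_le hle]
  · simp [hle] at h

theorem mu_mul_le (q : ι → ℤ) (ε : ℤ) {κ : ℝ} (hκ : 0 ≤ κ) (L : ℕ) {F G : MvPolynomial ι K}
    {r r' : ℤ} (hF : ChGE q F r) (hG : ChLE q G (-r')) :
    mu q ε κ L (G * F) ≤ (2 * L + 1) * Real.exp (-κ * (r + r' + ε)) * Zp q κ := by
  classical
  have hrank : ∀ β : ℤ, (blockM q ε β (G * F)).rank ≤
      (univ.filter fun D : ι → Bool => r + r' + ε ≤ 2 * (chg q (toF D) - β)).card := by
    intro β
    refine rank_le_card_of_factor _
      (fun R D => if chg q (toF R) = β + ε then mult G R D else 0)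
      (fun D C => if chg q (toF C) = β then mult F D C else 0) _ ?_
    intro R C
    unfold blockM
    by_cases h : chg q (toF C) = β ∧ chg q (toF R) = β + ε
    · rw [if_pos h, mult_mul]
      simp only [h.1, h.2, if_true]
      symm
      refine sum_subset (filter_subset _ _) ?_
      intro D _ hD
      by_contra hne
      apply hD
      obtain ⟨m1, hm1, e1⟩ := chg_of_mult_ne_zero q (left_ne_zero_of_mul hne)
      obtain ⟨m2, hm2, e2⟩ := chg_of_mult_ne_zero q (right_ne_zero_of_mul hne)
      have := hG m1 hm1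
      have := hF m2 hm2
      simp only [mem_filter, mem_univ, true_and]
      omega
    · rw [if_neg h]
      symm
      refine sum_eq_zero fun D _ => ?_
      by_cases h1 : chg q (toF C) = β
      · have h2 : ¬ chg q (toF R) = β + ε := fun h2 => h ⟨h1, h2⟩
        simp [h2]
      · simp [h1]
  have hterm : ∀ β : ℤ, Real.exp (2 * κ * β) * ((blockM q ε β (G * F)).rank : ℝ) ≤
      Real.exp (-κ * (r + r' + ε)) * Zp q κ := by
    intro β
    calc Real.exp (2 * κ * β) * ((blockM q ε β (G * F)).rank : ℝ)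
        ≤ Real.exp (2 * κ * β) * ((univ.filter fun D : ι → Bool =>
            r + r' + ε ≤ 2 * (chg q (toF D) - β)).card : ℝ) := by
          gcongr
          exact hrank β
      _ = ∑ D ∈ univ.filter (fun D : ι → Bool => r + r' + ε ≤ 2 * (chg q (toF D) - β)),
            Real.exp (2 * κ * β) := by simp [mul_comm]
      _ ≤ ∑ D ∈ univ.filter (fun D : ι → Bool => r + r' + ε ≤ 2 * (chg q (toF D) - β)),
            Real.exp (-κ * (r + r' + ε)) * Real.exp (2 * κ * chg q (toF D)) := by
          refine sum_le_sum fun D hD => ?_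
          rw [← Real.exp_add, Real.exp_le_exp]
          have h1 : r + r' + ε ≤ 2 * (chg q (toF D) - β) := (mem_filter.1 hD).2
          have h2 : ((r : ℝ) + r' + ε) ≤ 2 * ((chg q (toF D) : ℝ) - β) := by exact_mod_cast h1
          nlinarith
      _ ≤ ∑ D : ι → Bool, Real.exp (-κ * (r + r' + ε)) * Real.exp (2 * κ * chg q (toF D)) :=
          sum_le_sum_of_subset_of_nonneg (filter_subset _ _) fun _ _ _ => by positivity
      _ = _ := by rw [← mul_sum]; rfl
  unfold mu
  refine (sum_le_sum fun β _ => hterm β).trans ?_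
  rw [sum_const, Int.card_Icc, nsmul_eq_mul, mul_assoc]
  have : ((L : ℤ) + 1 - -(L : ℤ)).toNat = 2 * L + 1 := by omega
  rw [this]
  push_cast
  exact le_rfl

/-- `Bd T x`: in every context the measure of `T` is at most the basic bound times `x`. -/
def Bd (q : ι → ℤ) (ε : ℤ) (κ : ℝ) (L : ℕ) (T : MvPolynomial ι K) (x : ℝ) : Prop :=
  ∀ (F G : MvPolynomial ι K) (r r' : ℤ), ChGE q F r → ChLE q G (-r') →
    mu q ε κ L (G * F * T) ≤ (2 * L + 1) * Real.exp (-κ * (r + r' + ε)) * Zp q κ * x

theorem Zp_pos (q : ι → ℤ) (κ : ℝ) : 0 < Zp q κ :=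
  sum_pos (fun _ _ => Real.exp_pos _) univ_nonempty

variable {q : ι → ℤ} {ε : ℤ} {κ : ℝ} {L : ℕ}

theorem Bd.one (hκ : 0 ≤ κ) : Bd q ε κ L (1 : MvPolynomial ι K) 1 := by
  intro F G r r' hF hG
  simpa using mu_mul_le q ε hκ L hF hG

theorem Bd.zero : Bd q ε κ L (0 : MvPolynomial ι K) 0 := by
  intro F G r r' _ _
  simp [mu_zero]

theorem Bd.mono {T : MvPolynomial ι K} {x y : ℝ} (h : Bd q ε κ L T x) (hxy : x ≤ y) :
    Bd q ε κ L T y := by
  intro F G r r' hF hG
  refine (h F G r r' hF hG).trans ?_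
  have := Zp_pos q κ
  gcongr

theorem Bd.add {T U : MvPolynomial ι K} {x y : ℝ} (hT : Bd q ε κ L T x) (hU : Bd q ε κ L U y) :
    Bd q ε κ L (T + U) (x + y) := by
  intro F G r r' hF hG
  rw [mul_add, mul_add]
  exact (mu_add_le _ _ _ _ _ _).trans (add_le_add (hT F G r r' hF hG) (hU F G r r' hF hG))

theorem Bd.smul {T : MvPolynomial ι K} {x : ℝ} (c : K) (hT : Bd q ε κ L T x) :
    Bd q ε κ L (c • T) x := by
  intro F G r r' hF hG
  rw [mul_smul_comm]
  exact (mu_smul_le _ _ _ _ _ _).trans (hT F G r r' hF hG)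

theorem Bd.sum {α : Type*} (s : Finset α) (T : α → MvPolynomial ι K) (x : α → ℝ)
    (h : ∀ a ∈ s, Bd q ε κ L (T a) (x a)) : Bd q ε κ L (∑ a ∈ s, T a) (∑ a ∈ s, x a) := by
  classical
  induction s using Finset.induction_on with
  | empty => simpa using Bd.zero
  | insert a s ha ih =>
    rw [sum_insert ha, sum_insert ha]
    exact (h a (mem_insert_self _ _)).add (ih fun b hb => h b (mem_insert_of_mem hb))

theorem Bd.mul_neutral {T Q : MvPolynomial ι K} {x : ℝ} (hQ : ChGE q Q 0) (hT : Bd q ε κ L T x) :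
    Bd q ε κ L (Q * T) x := by
  intro F G r r' hF hG
  have := hT (F * Q) G (r + 0) r' (hF.mul hQ) hG
  simpa [mul_assoc] using this

theorem Bd.mul_gap {T Q : MvPolynomial ι K} {x : ℝ} {g : ℤ}
    (hQ : ∀ m ∈ Q.support, g ≤ |chg q m|) (hT : Bd q ε κ L T x) :
    Bd q ε κ L (Q * T) (2 * Real.exp (-κ * g) * x) := by
  classical
  set Qp : MvPolynomial ι K :=
    ∑ m ∈ Q.support.filter (fun m => 0 ≤ chg q m), monomial m (coeff m Q) with hQp
  set Qm : MvPolynomial ι K :=
    ∑ m ∈ Q.support.filter (fun m => ¬ 0 ≤ chg q m), monomial m (coeff m Q) with hQm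
  have hsum : Q = Qp + Qm := by
    rw [hQp, hQm, sum_filter_add_sum_filter_not]
    exact Q.as_sum
  have hp : ChGE q Qp g := by
    intro m hm
    obtain ⟨m', hm', h2⟩ := mem_biUnion.1 (support_sum hm)
    have h3 : m = m' := by simpa using support_monomial_subset h2
    subst h3
    rw [mem_filter] at hm'
    have := hQ m hm'.1
    rwa [abs_of_nonneg hm'.2] at this
  have hm : ChLE q Qm (-g) := by
    intro m hm
    obtain ⟨m', hm', h2⟩ := mem_biUnion.1 (support_sum hm)
    have h3 : m = m' := by simpa using support_monomial_subset h2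
    subst h3
    rw [mem_filter] at hm'
    have := hQ m hm'.1
    rw [abs_of_neg (not_le.1 hm'.2)] at this
    omega
  intro F G r r' hF hG
  have h1 := hT (F * Qp) G (r + g) r' (hF.mul hp) hG
  have h2 := hT F (G * Qm) r (r' + g) hF (by
    have := hG.mul hm
    convert this using 1
    ring)
  have e : G * F * (Q * T) = G * (F * Qp) * T + G * Qm * F * T := by
    rw [hsum]; ring
  rw [e]
  refine (mu_add_le _ _ _ _ _ _).trans ((add_le_add h1 h2).trans (le_of_eq ?_))
  push_cast
  have e1 : Real.exp (-κ * (r + g + r' + ε)) =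
      Real.exp (-κ * (r + r' + ε)) * Real.exp (-κ * g) := by
    rw [← Real.exp_add]; congr 1; ring
  have e2 : Real.exp (-κ * (r + (r' + g) + ε)) =
      Real.exp (-κ * (r + r' + ε)) * Real.exp (-κ * g) := by
    rw [← Real.exp_add]; congr 1; ring
  rw [e1, e2]
  ring

theorem Bd.mu_le {T : MvPolynomial ι K} {x : ℝ} (hT : Bd q ε κ L T x) :
    mu q ε κ L T ≤ (2 * L + 1) * Real.exp (-κ * ε) * Zp q κ * x := by
  have := hT 1 1 0 0 (chGE_one q) (by simpa using chLE_one q)
  simpa using this

end Crest.Agent.R327
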