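import Mathlib
import Crest.Prelude.Def_SPSPS
import Crest.Agent.R327.Mult

/-! The upper bound on the measure of a homogeneous depth-five circuit (row 327). -/

set_option autoImplicit false

namespace Crest.Agent.R327

open MvPolynomial Finset Crest.ArithCircuit

section Hom

variable {K ι L B P S R : Type*} [Field K] (C : SPSPS K ι L B P S R)

theorem hom_smul {φ : MvPolynomial ι K} {n : ℕ} (c : K) (h : φ.IsHomogeneous n) :
    (c • φ).IsHomogeneous n :=
  (homogeneousSubmodule ι K n).smul_mem c h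

theorem hom_multiset_prod {α : Type*} (M : Multiset α) (f : α → MvPolynomial ι K) (d : α → ℕ)
    (h : ∀ a ∈ M, (f a).IsHomogeneous (d a)) :
    (M.map f).prod.IsHomogeneous (M.map d).sum := by
  induction M using Multiset.induction_on with
  | empty => simpa using isHomogeneous_one ι K
  | cons a M ih =>
    simp only [Multiset.map_cons, Multiset.prod_cons, Multiset.sum_cons]
    exact (h a (Multiset.mem_cons_self _ _)).mul
      (ih fun b hb => h b (Multiset.mem_cons_of_mem hb))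

theorem leafVal_hom (l : L) : (C.leafVal l).IsHomogeneous (C.leafDeg l) := by
  unfold SPSPS.leafVal SPSPS.leafDeg
  rcases C.leaf l with i | c
  · exact isHomogeneous_X K i
  · exact isHomogeneous_C ι c

variable {C}

theorem valB_hom (h : C.IsHomogeneous) (b : B) : (C.valB b).IsHomogeneous (C.degB b) :=
  IsHomogeneous.sum _ _ _ fun l hl => hom_smul _ (h.1 b l hl ▸ leafVal_hom C l)

theorem valP_hom (h : C.IsHomogeneous) (p : P) : (C.valP p).IsHomogeneous (C.degP p) :=
  hom_multiset_prod _ _ _ fun b _ => valB_hom h b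

theorem valS_hom (h : C.IsHomogeneous) (s : S) : (C.valS s).IsHomogeneous (C.degS s) :=
  IsHomogeneous.sum _ _ _ fun p hp => hom_smul _ (h.2.1 s p hp ▸ valP_hom h p)

theorem valR_hom (h : C.IsHomogeneous) (r : R) : (C.valR r).IsHomogeneous (C.degR r) :=
  hom_multiset_prod _ _ _ fun s _ => valS_hom h s

theorem output_hom (h : C.IsHomogeneous) : C.output.IsHomogeneous C.degOut :=
  IsHomogeneous.sum _ _ _ fun r hr => hom_smul _ (h.2.2 r hr ▸ valR_hom h r)

theorem degB_le_one (C : SPSPS K ι L B P S R) (b : B) : C.degB b ≤ 1 := by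
  unfold SPSPS.degB
  refine Finset.sup_le fun l _ => ?_
  unfold SPSPS.leafDeg
  rcases C.leaf l with i | c <;> simp

end Hom

section Gap

variable {K ι : Type*} [Field K] [Fintype ι] [DecidableEq ι] {q : ι → ℤ} {s : ℕ}

omit [DecidableEq ι] in
theorem sum_eq_of_hom {φ : MvPolynomial ι K} {e : ℕ} (h : φ.IsHomogeneous e) {m : ι →₀ ℕ}
    (hm : m ∈ φ.support) : ∑ x, m x = e := by
  rw [← Finsupp.degree_eq_sum]
  by_contra hne
  exact (mem_support_iff.1 hm) (h.coeff_eq_zero hne)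

omit [DecidableEq ι] in
theorem gap_hom (hq : ∀ x, q x = 1 + 4 * s ∨ q x = 1 - 4 * s) {φ : MvPolynomial ι K} {e : ℕ}
    (h : φ.IsHomogeneous e) (he : e ≤ 2 * s) : ∀ m ∈ φ.support, (e : ℤ) ≤ |chg q m| := by
  intro m hm
  have h1 : ((∑ x, m x : ℕ) : ℤ) = e := by rw [sum_eq_of_hom h hm]
  have h2 : (4 * s : ℤ) ∣ chg q m - e := by
    rw [← h1]
    unfold chg
    push_cast
    rw [← sum_sub_distrib]
    refine dvd_sum fun x _ => ?_
    rcases hq x with hx | hx
    · exact ⟨m x, by rw [hx]; ring⟩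
    · exact ⟨-m x, by rw [hx]; ring⟩
  obtain ⟨t, ht⟩ := h2
  have he' : (e : ℤ) ≤ 2 * s := by exact_mod_cast he
  have hs : (0 : ℤ) ≤ s := Int.natCast_nonneg s
  rcases le_or_gt 0 t with h0 | h0
  · refine le_abs.2 (Or.inl ?_)
    nlinarith
  · refine le_abs.2 (Or.inr ?_)
    nlinarith

theorem gap_lin (hq : ∀ x, q x = 1 + 4 * s ∨ q x = 1 - 4 * s) {φ : MvPolynomial ι K}
    (h : φ.IsHomogeneous 1) : ∀ m ∈ φ.support, (4 * s - 1 : ℤ) ≤ |chg q m| := by
  intro m hm
  have h1 := sum_eq_of_hom h hm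
  obtain ⟨x, -, hx⟩ := exists_ne_zero_of_sum_ne_zero (s := univ) (f := fun x => m x)
    (by rw [h1]; exact one_ne_zero)
  have h2 : m x + ∑ y ∈ univ.erase x, m y = 1 := by
    rw [add_sum_erase _ (fun y => m y) (mem_univ x), h1]
  have h3 : m x = 1 := by omega
  have h4 : ∑ y ∈ univ.erase x, m y = 0 := by omega
  have h5 : chg q m = q x := by
    unfold chg
    rw [← add_sum_erase _ _ (mem_univ x), h3, sum_eq_zero]
    · simp
    · intro y hy
      rw [sum_eq_zero_iff.1 h4 y hy]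
      simp
  rw [h5]
  have hs : (0 : ℤ) ≤ s := Int.natCast_nonneg s
  rcases hq x with hx | hx
  · exact le_abs.2 (Or.inl (by omega))
  · exact le_abs.2 (Or.inr (by omega))

omit [DecidableEq ι] in
theorem chGE_of_hom_zero (q : ι → ℤ) {φ : MvPolynomial ι K} (h : φ.IsHomogeneous 0) :
    ChGE q φ 0 := by
  intro m hm
  have h1 := sum_eq_of_hom h hm
  have : m = 0 := Finsupp.ext fun x => sum_eq_zero_iff.1 h1 x (mem_univ x)
  simp [this]

variable {ε : ℤ} {κ : ℝ} {Lb : ℕ}

theorem bd_linear_prod (hq : ∀ x, q x = 1 + 4 * s ∨ q x = 1 - 4 * s) {α : Type*}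
    (f : α → MvPolynomial ι K) (d : α → ℕ) (hf : ∀ a, (f a).IsHomogeneous (d a))
    (hd : ∀ a, d a ≤ 1) {T : MvPolynomial ι K} {x : ℝ} (hT : Bd q ε κ Lb T x) (M : Multiset α) :
    Bd q ε κ Lb ((M.map f).prod * T)
      ((2 * Real.exp (-κ * ((4 * s - 1 : ℤ) : ℝ))) ^ (M.map d).sum * x) := by
  induction M using Multiset.induction_on with
  | empty => simpa using hT
  | cons a M ih =>
    simp only [Multiset.map_cons, Multiset.prod_cons, Multiset.sum_cons]
    rw [mul_assoc]
    rcases Nat.le_one_iff_eq_zero_or_eq_one.1 (hd a) with h0 | h1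
    · rw [h0, zero_add]
      exact Bd.mul_neutral (chGE_of_hom_zero q (h0 ▸ hf a)) ih
    · rw [h1, pow_add, pow_one, mul_assoc]
      exact Bd.mul_gap (gap_lin hq (h1 ▸ hf a)) ih

theorem bd_group (hq : ∀ x, q x = 1 + 4 * s ∨ q x = 1 - 4 * s) (hs : 0 < s) (hκ : 0 ≤ κ)
    {α : Type*} (f : α → MvPolynomial ι K) (d : α → ℕ) (hf : ∀ a, (f a).IsHomogeneous (d a))
    (M : Multiset α) (hd : ∀ a ∈ M, d a < s) :
    ∃ (Q T : MvPolynomial ι K) (e u g : ℕ), (M.map f).prod = Q * T ∧ Q.IsHomogeneous e ∧ e < s ∧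
      e + u = (M.map d).sum ∧ g * s ≤ u ∧ Bd q ε κ Lb T (2 ^ g * Real.exp (-κ * u)) := by
  induction M using Multiset.induction_on with
  | empty =>
    refine ⟨1, 1, 0, 0, 0, by simp, isHomogeneous_one ι K, hs, by simp, by simp, ?_⟩
    simpa using Bd.one hκ
  | cons a M ih =>
    obtain ⟨Q, T, e, u, g, h1, h2, h3, h4, h5, h6⟩ :=
      ih fun b hb => hd b (Multiset.mem_cons_of_mem hb)
    have ha := hd a (Multiset.mem_cons_self _ _)
    simp only [Multiset.map_cons, Multiset.prod_cons, Multiset.sum_cons]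
    have hQ : (f a * Q).IsHomogeneous (d a + e) := (hf a).mul h2
    by_cases hlt : d a + e < s
    · exact ⟨f a * Q, T, d a + e, u, g, by rw [h1, mul_assoc], hQ, hlt, by omega, h5, h6⟩
    · refine ⟨1, f a * Q * T, 0, d a + e + u, g + 1, by rw [h1, one_mul, mul_assoc],
        isHomogeneous_one ι K, hs, by omega, by nlinarith, ?_⟩
      have := Bd.mul_gap (gap_hom hq hQ (by omega)) h6
      refine this.mono (le_of_eq ?_)
      have e1 : Real.exp (-κ * ((d a + e + u : ℕ) : ℝ)) =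
          Real.exp (-κ * (((d a + e : ℕ) : ℤ) : ℝ)) * Real.exp (-κ * u) := by
        rw [← Real.exp_add]; congr 1; push_cast; ring
      rw [e1]; ring

theorem bd_small_factors (hq : ∀ x, q x = 1 + 4 * s ∨ q x = 1 - 4 * s) (hs : 0 < s) (hκ : 0 ≤ κ)
    {α : Type*} (f : α → MvPolynomial ι K) (d : α → ℕ) (hf : ∀ a, (f a).IsHomogeneous (d a))
    (M : Multiset α) (hd : ∀ a ∈ M, d a < s) {n : ℕ} (hn : (M.map d).sum = n)
    (hns : n < (s + 1) ^ 2) :
    Bd q ε κ Lb (M.map f).prod (2 ^ (s + 3) * Real.exp (-κ * n)) := by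
  obtain ⟨Q, T, e, u, g, h1, h2, h3, h4, h5, h6⟩ := bd_group (ε := ε) (Lb := Lb) hq hs hκ f d hf M hd
  rw [h1]
  refine (Bd.mul_gap (gap_hom hq h2 (by omega)) h6).mono ?_
  have hg : g ≤ s + 2 := by
    by_contra hc
    have : (s + 3) * s ≤ g * s := Nat.mul_le_mul_right _ (by omega)
    nlinarith
  have e1 : Real.exp (-κ * n) = Real.exp (-κ * ((e : ℤ) : ℝ)) * Real.exp (-κ * u) := by
    rw [← Real.exp_add, ← hn, ← h4]; congr 1; push_cast; ring
  rw [e1]
  have : (2 : ℝ) ^ (g + 1) ≤ 2 ^ (s + 3) := pow_le_pow_right₀ (by norm_num) (by omega)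
  calc 2 * Real.exp (-κ * ((e : ℤ) : ℝ)) * (2 ^ g * Real.exp (-κ * u))
      = 2 ^ (g + 1) * (Real.exp (-κ * ((e : ℤ) : ℝ)) * Real.exp (-κ * u)) := by ring
    _ ≤ _ := by gcongr

theorem bd_output {L B P S R : Type*} [Fintype P] [Fintype R] (C : SPSPS K ι L B P S R)
    (hC : C.IsHomogeneous) (hq : ∀ x, q x = 1 + 4 * s ∨ q x = 1 - 4 * s) (hs : 0 < s)
    (hκ : 0 ≤ κ) {n : ℕ} (hn : C.degOut = n) (hns : n < (s + 1) ^ 2)
    (hρ : 2 * Real.exp (-κ * ((4 * s - 1 : ℤ) : ℝ)) ≤ 1) :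
    Bd q ε κ Lb C.output (Fintype.card R *
      (Fintype.card P * (2 * Real.exp (-κ * ((4 * s - 1 : ℤ) : ℝ))) ^ s * 2 +
        2 ^ (s + 3) * Real.exp (-κ * n))) := by
  classical
  set ρ : ℝ := 2 * Real.exp (-κ * ((4 * s - 1 : ℤ) : ℝ)) with hρdef
  have hρ0 : 0 ≤ ρ := by positivity
  set X : ℝ := Fintype.card P * ρ ^ s * 2 + 2 ^ (s + 3) * Real.exp (-κ * n) with hX
  have hX0 : 0 ≤ X := by positivity
  have hR : ∀ r ∈ C.inOut, Bd q ε κ Lb (C.coefOut r • C.valR r) X := by
    intro r hr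
    refine Bd.smul _ ?_
    have hdeg : C.degR r = n := (hC.2.2 r hr).trans hn
    by_cases hbig : ∃ s0 ∈ C.inR r, s ≤ C.degS s0
    · obtain ⟨s0, hs0, hle⟩ := hbig
      obtain ⟨M, hM⟩ := Multiset.exists_cons_of_mem hs0
      have hrest : Bd q ε κ Lb ((M.map C.valS).prod * 1) (2 * Real.exp (-κ * ((0 : ℤ) : ℝ)) * 1) :=
        Bd.mul_gap (fun m _ => abs_nonneg _) (Bd.one hκ)
      simp only [mul_one, Int.cast_zero, mul_zero, Real.exp_zero] at hrest
      have e : C.valR r = ∑ p ∈ C.inS s0, C.coefS s0 p • (C.valP p * (M.map C.valS).prod) := by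
        rw [SPSPS.valR, hM, Multiset.map_cons, Multiset.prod_cons, SPSPS.valS, sum_mul]
        simp
      rw [e]
      have h1 := Bd.sum (q := q) (ε := ε) (κ := κ) (L := Lb) (C.inS s0)
        (fun p => C.coefS s0 p • (C.valP p * (M.map C.valS).prod)) (fun _ => ρ ^ s * 2) (by
          intro p hp
          refine Bd.smul _ ?_
          have := bd_linear_prod hq C.valB C.degB (valB_hom hC) (degB_le_one C) hrest (C.inP p)
          refine this.mono ?_
          have h2 : s ≤ ((C.inP p).map C.degB).sum := by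
            have := hC.2.1 s0 p hp
            unfold SPSPS.degP at this
            omega
          gcongr ?_ * 2
          exact pow_le_pow_of_le_one hρ0 hρ h2)
      refine h1.mono ?_
      rw [sum_const, nsmul_eq_mul, hX]
      have h3 : ((C.inS s0).card : ℝ) ≤ Fintype.card P := by exact_mod_cast card_le_univ _
      have h4 : (0 : ℝ) ≤ 2 ^ (s + 3) * Real.exp (-κ * n) := by positivity
      have h5 : ((C.inS s0).card : ℝ) * (ρ ^ s * 2) ≤ Fintype.card P * (ρ ^ s * 2) := by gcongr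
      linarith
    · push Not at hbig
      refine (bd_small_factors hq hs hκ C.valS C.degS (valS_hom hC) (C.inR r) hbig hdeg hns).mono ?_
      have : (0 : ℝ) ≤ Fintype.card P * ρ ^ s * 2 := by positivity
      linarith
  refine (Bd.sum C.inOut _ (fun _ => X) hR).mono ?_
  rw [sum_const, nsmul_eq_mul]
  have h3 : (C.inOut.card : ℝ) ≤ Fintype.card R := by exact_mod_cast card_le_univ _
  gcongr

end Gap

end Crest.Agent.R327
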