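import Mathlib

/-! Path expansions of matrix products and the transfer-matrix bound for row 327. -/

set_option autoImplicit false

namespace Crest.Agent.R327

open Finset

theorem ofFn_prod_apply {S V : Type*} [CommSemiring S] [Fintype V] [DecidableEq V] :
    ∀ (m : ℕ) (A : Fin m → Matrix V V S) (s t : V),
      (List.ofFn A).prod s t = ∑ v : Fin (m + 1) → V,
        if v 0 = s ∧ v (Fin.last m) = t then ∏ i, A i (v i.castSucc) (v i.succ) else 0
  | 0, A, s, t => by
    rw [← (Equiv.funUnique (Fin 1) V).symm.sum_comp]
    simp only [List.ofFn_zero, List.prod_nil, Matrix.one_apply]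
    by_cases h : s = t
    · subst h
      simp
    · rw [if_neg h]
      symm
      refine sum_eq_zero fun x _ => ?_
      rw [if_neg]
      rintro ⟨h1, h2⟩
      exact h (h1.symm.trans h2)
  | m + 1, A, s, t => by
    rw [List.ofFn_succ, List.prod_cons, Matrix.mul_apply]
    simp_rw [ofFn_prod_apply m]
    rw [← (Fin.consEquiv fun _ : Fin (m + 2) => V).sum_comp, Fintype.sum_prod_type]
    simp only [Fin.consEquiv_apply, Fin.cons_zero]
    symm
    rw [sum_eq_single s]
    · simp only [mul_sum, true_and]
      rw [sum_comm]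
      refine sum_congr rfl fun w _ => ?_
      rw [sum_eq_single (w 0)]
      · have e1 : (Fin.cons s w : Fin (m + 2) → V) (Fin.last (m + 1)) = w (Fin.last m) := by
          rw [← Fin.succ_last, Fin.cons_succ]
        rw [e1, Fin.prod_univ_succ]
        simp only [true_and, Fin.castSucc_zero, Fin.cons_zero, Fin.cons_succ, mul_ite, mul_zero]
        congr 1
      · intro b _ hb
        rw [if_neg, mul_zero]
        rintro ⟨h, _⟩
        exact hb h.symm
      · simp
    · intro b _ hb
      refine sum_eq_zero fun w _ => ?_
      rw [if_neg]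
      rintro ⟨h, _⟩
      exact hb h
    · simp

theorem sum_pi_prod {J A B M : Type*} [Fintype J] [DecidableEq J] [Fintype A] [Fintype B]
    [AddCommMonoid M] (F : (J → A) → (J → B) → M) :
    ∑ a, ∑ b, F a b = ∑ u : J → A × B, F (fun j => (u j).1) (fun j => (u j).2) := by
  rw [← Fintype.sum_prod_type']
  exact ((Equiv.arrowProdEquivProdArrow J (fun _ => A) (fun _ => B)).sum_comp
    (fun p => F p.1 p.2)).symm

theorem ones_prod_apply {V : Type*} [Fintype V] [DecidableEq V] :
    ∀ (m : ℕ) (s t : V),
      (List.ofFn fun _ : Fin (m + 1) => (Matrix.of fun _ _ => 1 : Matrix V V ℝ)).prod s t =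
        (Fintype.card V : ℝ) ^ m
  | 0, s, t => by simp
  | m + 1, s, t => by
    rw [List.ofFn_succ, List.prod_cons, Matrix.mul_apply]
    simp_rw [ones_prod_apply m]
    simp [pow_succ']

theorem card_paths {V : Type*} [Fintype V] [DecidableEq V] (m : ℕ) (s t : V) :
    ∑ v : Fin (m + 2) → V, (if v 0 = s ∧ v (Fin.last (m + 1)) = t then (1 : ℝ) else 0) =
      (Fintype.card V : ℝ) ^ m := by
  rw [← ones_prod_apply m s t, ofFn_prod_apply]
  simp

section Transfer

variable {V : Type*} [Fintype V] [DecidableEq V]

/-- Pairing pattern (12)(34). -/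
def patA (x : V × V × V × V) : ℝ := if x.1 = x.2.1 ∧ x.2.2.1 = x.2.2.2 then 1 else 0

/-- Pairing pattern (14)(23). -/
def patB (x : V × V × V × V) : ℝ := if x.1 = x.2.2.2 ∧ x.2.1 = x.2.2.1 then 1 else 0

omit [Fintype V] in
theorem patA_nonneg (x : V × V × V × V) : 0 ≤ patA x := by unfold patA; split_ifs <;> norm_num

omit [Fintype V] in
theorem patB_nonneg (x : V × V × V × V) : 0 ≤ patB x := by unfold patB; split_ifs <;> norm_num

theorem sum_patA_patA : ∑ x : V × V × V × V, patA x * patA x = (Fintype.card V : ℝ) ^ 2 := by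
  simp [patA, Fintype.sum_prod_type, ite_and, sq]

theorem sum_patB_patB : ∑ x : V × V × V × V, patB x * patB x = (Fintype.card V : ℝ) ^ 2 := by
  simp [patB, Fintype.sum_prod_type, ite_and, sq]

theorem sum_patA_patB : ∑ x : V × V × V × V, patA x * patB x = (Fintype.card V : ℝ) := by
  have : ∀ x : V × V × V × V, patA x * patB x =
      if x.1 = x.2.1 then if x.1 = x.2.2.1 then if x.1 = x.2.2.2 then 1 else 0 else 0 else 0 := by
    rintro ⟨a, b, c, d⟩
    simp only [patA, patB]
    by_cases h1 : a = b <;> by_cases h2 : a = c <;> by_cases h3 : a = d <;> simp_all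
  simp_rw [this]
  simp [Fintype.sum_prod_type]

/-- The transfer matrix of a layer of weight `ω`. -/
def transfer (ω : ℝ) : Matrix (V × V × V × V) (V × V × V × V) ℝ :=
  Matrix.of fun x y => patA x * patA y + ω * (patB x * patB y)

theorem transfer_prod_le [Nonempty V] (o : V) (E : ℕ → ℝ) (M : ℝ) (hE0 : E 0 = 0)
    (hM : ∀ j, Real.exp |E j| ≤ M) :
    ∀ (j : ℕ) (y : V × V × V × V),
      (List.ofFn fun i : Fin (j + 1) =>
        (transfer (Real.exp (E (i + 1) - E i)) : Matrix (V × V × V × V) (V × V × V × V) ℝ)).prod
          (o, o, o, o) y ≤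
      ((Fintype.card V : ℝ) ^ 2 * (1 + M / Fintype.card V)) ^ j *
        (patA y + Real.exp (E (j + 1)) * patB y)
  | 0, y => by simp [transfer, patA, patB, hE0]
  | j + 1, y => by
    have hw : (0 : ℝ) < Fintype.card V := by exact_mod_cast Fintype.card_pos
    have hM0 : 0 ≤ M := (Real.exp_pos _).le.trans (hM 0)
    rw [List.ofFn_succ', List.concat_eq_append, List.prod_append, List.prod_singleton,
      Matrix.mul_apply]
    set w : ℝ := (Fintype.card V : ℝ)
    set θ : ℝ := w ^ 2 * (1 + M / w)
    set e : ℝ := Real.exp (E (j + 1))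
    set ω : ℝ := Real.exp (E (j + 1 + 1) - E (j + 1))
    have hω : 0 ≤ ω := (Real.exp_pos _).le
    have he : 0 ≤ e := (Real.exp_pos _).le
    have ih := transfer_prod_le o E M hE0 hM j
    have hθ : 0 ≤ θ := by positivity
    calc _ ≤ ∑ x, θ ^ j * (patA x + e * patB x) * (patA x * patA y + ω * (patB x * patB y)) := by
          refine sum_le_sum fun x _ => ?_
          have h1 := ih x
          simp only [Fin.val_castSucc, Fin.val_last] at h1 ⊢
          have h2 : 0 ≤ patA x * patA y + ω * (patB x * patB y) :=
            add_nonneg (mul_nonneg (patA_nonneg _) (patA_nonneg _))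
              (mul_nonneg hω (mul_nonneg (patB_nonneg _) (patB_nonneg _)))
          exact mul_le_mul_of_nonneg_right h1 h2
      _ = θ ^ j * ((∑ x : V × V × V × V, patA x * patA x) * patA y +
            e * (∑ x : V × V × V × V, patA x * patB x) * patA y +
            ω * (∑ x : V × V × V × V, patA x * patB x) * patB y +
            ω * e * (∑ x : V × V × V × V, patB x * patB x) * patB y) := by
          simp only [mul_sum, sum_mul, ← sum_add_distrib]
          exact sum_congr rfl fun x _ => by ring
      _ = θ ^ j * ((w ^ 2 + e * w) * patA y + (ω * w + ω * e * w ^ 2) * patB y) := by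
          rw [sum_patA_patA, sum_patA_patB, sum_patB_patB]; ring
      _ ≤ θ ^ j * (θ * patA y + θ * Real.exp (E (j + 1 + 1)) * patB y) := by
          have hθ' : θ = w ^ 2 + M * w := by
            simp only [θ]; field_simp
          have h1 : e ≤ M := (Real.exp_le_exp.2 (le_abs_self _)).trans (hM _)
          have h2 : ω * e = Real.exp (E (j + 1 + 1)) := by
            simp only [ω, e]; rw [← Real.exp_add]; congr 1; ring
          have h3 : ω ≤ M * Real.exp (E (j + 1 + 1)) := by
            have : ω = Real.exp (-E (j + 1)) * Real.exp (E (j + 1 + 1)) := by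
              simp only [ω]; rw [← Real.exp_add]; congr 1; ring
            rw [this]
            gcongr
            exact (Real.exp_le_exp.2 (neg_le_abs _)).trans (hM _)
          have h4 := patA_nonneg y
          have h5 := patB_nonneg y
          gcongr
          · rw [hθ']; gcongr
          · rw [hθ', h2]
            nlinarith [mul_le_mul_of_nonneg_right h3 hw.le]
      _ = _ := by rw [pow_succ]; ring

end Transfer

end Crest.Agent.R327
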