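import Mathlib
import Crest.Agent.R327.Mult
import Crest.Agent.R327.Paths

/-! First and second moment computations for row 327. -/

set_option autoImplicit false

namespace Crest.Agent.R327

open MvPolynomial Finset

/-- Real indicator of an equation between naturals. -/
def ind (a b : ℕ) : ℝ := if a = b then 1 else 0

theorem ind_nonneg (a b : ℕ) : 0 ≤ ind a b := by unfold ind; split_ifs <;> norm_num

section General

variable {ι : Type*} [Fintype ι] [DecidableEq ι]

theorem ind_finsupp (a : ι →₀ ℕ) (C R : ι → Bool) :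
    (if a + toF C = toF R then (1 : ℝ) else 0) = ∏ x, ind (a x + (C x).toNat) (R x).toNat := by
  by_cases h : a + toF C = toF R
  · rw [if_pos h]
    symm
    refine prod_eq_one fun x _ => ?_
    have := congrArg (fun m : ι →₀ ℕ => m x) h
    simp only [Finsupp.add_apply, toF_apply] at this
    simp [ind, this]
  · rw [if_neg h]
    symm
    have : ∃ x, a x + (C x).toNat ≠ (R x).toNat := by
      by_contra hc
      push Not at hc
      exact h (Finsupp.ext fun x => by simpa using hc x)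
    obtain ⟨x, hx⟩ := this
    exact prod_eq_zero (mem_univ x) (by simp [ind, hx])

omit [DecidableEq ι] in
theorem exp_chg (q : ι → ℤ) (κ : ℝ) (C : ι → Bool) :
    Real.exp (2 * κ * chg q (toF C)) = ∏ x, Real.exp (2 * κ * q x) ^ (C x).toNat := by
  unfold chg
  push_cast
  rw [mul_sum, Real.exp_sum]
  refine prod_congr rfl fun x _ => ?_
  rw [← Real.exp_nat_mul]
  congr 1
  simp only [toF_apply]
  ring

theorem Zp_eq (q : ι → ℤ) (κ : ℝ) : Zp q κ = ∏ x, (1 + Real.exp (2 * κ * q x)) := by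
  unfold Zp
  simp_rw [exp_chg]
  rw [← Fintype.prod_sum (fun x (b : Bool) => Real.exp (2 * κ * q x) ^ b.toNat)]
  refine prod_congr rfl fun x _ => ?_
  simp [add_comm]

/-- One-site factor of the first moment. -/
noncomputable def phi1 (ω : ℝ) (a : ℕ) : ℝ :=
  ∑ γ : Bool, ∑ ρ : Bool, ω ^ γ.toNat * ind (a + γ.toNat) ρ.toNat

/-- One-site factor of the second moment. -/
noncomputable def phi4 (ω : ℝ) (a b c d : ℕ) : ℝ :=
  ∑ γ : Bool, ∑ γ' : Bool, ∑ ρ : Bool, ∑ ρ' : Bool, ω ^ γ.toNat *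
    (ind (a + γ.toNat) ρ.toNat * ind (b + γ'.toNat) ρ.toNat *
      (ind (d + γ.toNat) ρ'.toNat * ind (c + γ'.toNat) ρ'.toNat))

theorem sum_first (ω : ι → ℝ) (a : ι →₀ ℕ) :
    ∑ C : ι → Bool, ∑ R : ι → Bool, (∏ x, ω x ^ (C x).toNat) *
      (if a + toF C = toF R then (1 : ℝ) else 0) = ∏ x, phi1 (ω x) (a x) := by
  simp_rw [ind_finsupp, ← prod_mul_distrib]
  unfold phi1
  rw [Fintype.prod_sum]
  refine sum_congr rfl fun C _ => ?_
  rw [Fintype.prod_sum]

theorem sum_fourth (ω : ι → ℝ) (a b c d : ι →₀ ℕ) :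
    ∑ C : ι → Bool, ∑ C' : ι → Bool, ∑ R : ι → Bool, ∑ R' : ι → Bool,
      (∏ x, ω x ^ (C x).toNat) *
      ((if a + toF C = toF R then (1 : ℝ) else 0) * (if b + toF C' = toF R then (1 : ℝ) else 0) *
        ((if d + toF C = toF R' then (1 : ℝ) else 0) *
          (if c + toF C' = toF R' then (1 : ℝ) else 0))) =
      ∏ x, phi4 (ω x) (a x) (b x) (c x) (d x) := by
  simp_rw [ind_finsupp, ← prod_mul_distrib]
  unfold phi4
  rw [Fintype.prod_sum]
  refine sum_congr rfl fun C _ => ?_
  rw [Fintype.prod_sum]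
  refine sum_congr rfl fun C' _ => ?_
  rw [Fintype.prod_sum]
  refine sum_congr rfl fun R _ => ?_
  rw [Fintype.prod_sum]

end General

theorem phi1_zero (ω : ℝ) : phi1 ω 0 = 1 + ω := by simp [phi1, ind, add_comm]
theorem phi1_one (ω : ℝ) : phi1 ω 1 = 1 := by simp [phi1, ind]

theorem phi4_0000 (ω : ℝ) : phi4 ω 0 0 0 0 = 1 + ω := by simp [phi4, ind, add_comm]
theorem phi4_1111 (ω : ℝ) : phi4 ω 1 1 1 1 = 1 := by simp [phi4, ind]
theorem phi4_1100 (ω : ℝ) : phi4 ω 1 1 0 0 = 1 := by simp [phi4, ind]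
theorem phi4_0011 (ω : ℝ) : phi4 ω 0 0 1 1 = 1 := by simp [phi4, ind]
theorem phi4_1001 (ω : ℝ) : phi4 ω 1 0 0 1 = 1 := by simp [phi4, ind]
theorem phi4_0110 (ω : ℝ) : phi4 ω 0 1 1 0 = ω := by simp [phi4, ind]

theorem phi4_eq_zero (ω : ℝ) {a b c d : ℕ} (h : a + c ≠ b + d) : phi4 ω a b c d = 0 := by
  unfold phi4
  refine sum_eq_zero fun γ _ => sum_eq_zero fun γ' _ => sum_eq_zero fun ρ _ =>
    sum_eq_zero fun ρ' _ => ?_
  unfold ind
  split_ifs <;> first | omega | simp

section Layer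

variable {E : Type*} [Fintype E] [DecidableEq E]

theorem prod_ite_one (ω : ℝ) (hω : 0 ≤ ω) (e₁ : E) (a : ℝ) :
    ∏ e : E, (if e = e₁ then a else 1 + ω) = (1 + ω) ^ Fintype.card E * (1 + ω)⁻¹ * a := by
  have h : ∀ e : E, (if e = e₁ then a else 1 + ω) =
      (1 + ω) * (if e = e₁ then (1 + ω)⁻¹ * a else 1) := by
    intro e
    split_ifs
    · field_simp
    · simp
  simp_rw [h, prod_mul_distrib]
  simp [mul_assoc]

theorem prod_ite_two (ω : ℝ) (hω : 0 ≤ ω) (e₁ e₂ : E) (hne : e₁ ≠ e₂) (a b : ℝ) :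
    ∏ e : E, (if e = e₁ then a else if e = e₂ then b else 1 + ω) =
      (1 + ω) ^ Fintype.card E * (1 + ω)⁻¹ ^ 2 * (a * b) := by
  have h : ∀ e : E, (if e = e₁ then a else if e = e₂ then b else 1 + ω) =
      (1 + ω) * ((if e = e₁ then (1 + ω)⁻¹ * a else 1) *
        (if e = e₂ then (1 + ω)⁻¹ * b else 1)) := by
    intro e
    by_cases h1 : e = e₁
    · subst h1
      simp only [if_true, if_neg hne]
      field_simp
    · by_cases h2 : e = e₂
      · subst h2
        simp only [if_neg h1, if_true]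
        field_simp
      · simp [h1, h2]
  simp_rw [h, prod_mul_distrib]
  simp only [prod_const, card_univ, prod_ite_eq', mem_univ, if_true]
  ring

theorem layer_first (ω : ℝ) (hω : 0 ≤ ω) (e₁ : E) :
    ∏ e : E, phi1 ω (if e = e₁ then 1 else 0) = (1 + ω) ^ Fintype.card E * (1 + ω)⁻¹ := by
  have h : ∀ e : E, phi1 ω (if e = e₁ then 1 else 0) = if e = e₁ then 1 else 1 + ω := by
    intro e
    split_ifs
    · exact phi1_one ω
    · exact phi1_zero ω
  simp_rw [h]
  rw [prod_ite_one ω hω, mul_one]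

theorem layer_fourth (ω : ℝ) (hω : 0 ≤ ω) (e₁ e₂ e₃ e₄ : E) :
    ∏ e : E, phi4 ω (if e = e₁ then 1 else 0) (if e = e₂ then 1 else 0)
      (if e = e₃ then 1 else 0) (if e = e₄ then 1 else 0) =
      (1 + ω) ^ Fintype.card E * (1 + ω)⁻¹ ^ 2 *
        ((if e₁ = e₂ ∧ e₃ = e₄ then 1 else 0) + ω * (if e₁ = e₄ ∧ e₂ = e₃ then 1 else 0)) := by
  by_cases hA : e₁ = e₂ ∧ e₃ = e₄
  · obtain ⟨rfl, rfl⟩ := hA
    by_cases h13 : e₁ = e₃
    · subst h13
      have h : ∀ e : E, phi4 ω (if e = e₁ then 1 else 0) (if e = e₁ then 1 else 0)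
          (if e = e₁ then 1 else 0) (if e = e₁ then 1 else 0) =
          if e = e₁ then 1 else 1 + ω := by
        intro e
        split_ifs
        · exact phi4_1111 ω
        · exact phi4_0000 ω
      simp_rw [h]
      rw [prod_ite_one ω hω]
      simp only [and_self, if_true]
      field_simp
    · have h : ∀ e : E, phi4 ω (if e = e₁ then 1 else 0) (if e = e₁ then 1 else 0)
          (if e = e₃ then 1 else 0) (if e = e₃ then 1 else 0) =
          if e = e₁ then 1 else if e = e₃ then 1 else 1 + ω := by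
        intro e
        split_ifs with h1 h2 h2
        · exact absurd (h1.symm.trans h2) h13
        · exact phi4_1100 ω
        · exact phi4_0011 ω
        · exact phi4_0000 ω
      simp_rw [h]
      rw [prod_ite_two ω hω _ _ h13]
      simp [h13]
  · by_cases hB : e₁ = e₄ ∧ e₂ = e₃
    · obtain ⟨rfl, rfl⟩ := hB
      have h12 : e₁ ≠ e₂ := fun h => hA ⟨h, h.symm⟩
      have h : ∀ e : E, phi4 ω (if e = e₁ then 1 else 0) (if e = e₂ then 1 else 0)
          (if e = e₂ then 1 else 0) (if e = e₁ then 1 else 0) =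
          if e = e₁ then 1 else if e = e₂ then ω else 1 + ω := by
        intro e
        split_ifs with h1 h2 h2
        · exact absurd (h1.symm.trans h2) h12
        · exact phi4_1001 ω
        · exact phi4_0110 ω
        · exact phi4_0000 ω
      simp_rw [h]
      rw [prod_ite_two ω hω _ _ h12]
      simp [h12]
    · rw [if_neg hA, if_neg hB]
      simp only [mul_zero, add_zero]
      by_cases h12 : e₁ = e₂
      · subst h12
        have h34 : e₃ ≠ e₄ := fun h => hA ⟨rfl, h⟩
        refine prod_eq_zero (mem_univ e₃) (phi4_eq_zero ω ?_)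
        simp [h34]
      · by_cases h14 : e₁ = e₄
        · subst h14
          have h23 : e₂ ≠ e₃ := fun h => hB ⟨rfl, h⟩
          refine prod_eq_zero (mem_univ e₃) (phi4_eq_zero ω ?_)
          simp [h23.symm, add_comm]
        · refine prod_eq_zero (mem_univ e₁) (phi4_eq_zero ω ?_)
          simp [h12, h14]

end Layer

end Crest.Agent.R327
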