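import Mathlib
import Crest.Agent.R327.Moments

/-! The lower bound on the measure of the iterated matrix product (row 327). -/

set_option autoImplicit false

namespace Crest.Agent.R327

open MvPolynomial Finset

variable {V : Type*} [Fintype V] [DecidableEq V]

/-- The monomial of a path. -/
noncomputable def pathMon {m : ℕ} (v : Fin (m + 1) → V) : Fin m × V × V →₀ ℕ :=
  ∑ i, Finsupp.single (i, v i.castSucc, v i.succ) 1

/-- Closed paths at `o`. -/
def paths (o : V) (m : ℕ) : Finset (Fin (m + 1) → V) :=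
  univ.filter fun v => v 0 = o ∧ v (Fin.last m) = o

/-- The path polynomial. -/
noncomputable def pathPoly (S : Type*) [CommSemiring S] (o : V) (m : ℕ) :
    MvPolynomial (Fin m × V × V) S :=
  ∑ v ∈ paths o m, monomial (pathMon v) 1

omit [Fintype V] in
theorem pathMon_apply {m : ℕ} (v : Fin (m + 1) → V) (i : Fin m) (e : V × V) :
    pathMon v (i, e) = if e = (v i.castSucc, v i.succ) then 1 else 0 := by
  unfold pathMon
  rw [Finsupp.finsetSum_apply, sum_eq_single i]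
  · simp [Finsupp.single_apply, eq_comm]
  · intro j _ hj
    simp [hj]
  · simp

theorem prod_eq_pathPoly (S : Type*) [CommSemiring S] (o : V) (m : ℕ) :
    (List.ofFn fun i : Fin m =>
      (Matrix.of fun a b => X (i, a, b) : Matrix V V (MvPolynomial (Fin m × V × V) S))).prod o o =
      pathPoly S o m := by
  rw [ofFn_prod_apply, pathPoly, paths, sum_filter]
  refine sum_congr rfl fun v _ => ?_
  split_ifs
  · rw [pathMon, monomial_sum_one]
    rfl
  · rfl

theorem mult_pathPoly (S : Type*) [CommSemiring S] (o : V) (m : ℕ)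
    (R C : Fin m × V × V → Bool) :
    mult (pathPoly S o m) R C =
      ∑ v ∈ paths o m, if pathMon v + toF C = toF R then (1 : S) else 0 := by
  unfold mult pathPoly
  rw [sum_mul, coeff_sum]
  refine sum_congr rfl fun v _ => ?_
  rw [monomial_mul, coeff_monomial, mul_one]

theorem mu_pathPoly_eq (K : Type*) [Field K] [CharZero K] (o : V) (m : ℕ)
    (q : Fin m × V × V → ℤ) (ε : ℤ) (κ : ℝ) (L : ℕ) :
    mu q ε κ L (pathPoly K o m) = mu q ε κ L (pathPoly ℝ o m) := by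
  have key : ∀ (E : Type _) [Field E] (φ : ℚ →+* E) (β : ℤ),
      blockM q ε β (pathPoly E o m) = (blockM q ε β (pathPoly ℚ o m)).map φ := by
    intro E _ φ β
    ext R C
    simp only [blockM, Matrix.map_apply, mult_pathPoly]
    split_ifs
    · rw [map_sum]
      refine sum_congr rfl fun v _ => ?_
      split_ifs <;> simp
    · simp
  have key' : ∀ (φ : ℚ →+* ℝ) (β : ℤ),
      blockM q ε β (pathPoly ℝ o m) = (blockM q ε β (pathPoly ℚ o m)).map φ := by
    intro φ β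
    ext R C
    simp only [blockM, Matrix.map_apply, mult_pathPoly]
    split_ifs
    · rw [map_sum]
      refine sum_congr rfl fun v _ => ?_
      split_ifs <;> simp
    · simp
  unfold mu
  refine sum_congr rfl fun β _ => ?_
  rw [key K (algebraMap ℚ K), key' (algebraMap ℚ ℝ), rank_map_eq, rank_map_eq]

/-- Charges depending on the layer only. -/
def layerQ (V : Type*) (m : ℕ) (S : ℕ → ℤ) : Fin m × V × V → ℤ := fun x => S (x.1 + 1) - S x.1

theorem chg_pathMon {m : ℕ} (S : ℕ → ℤ) (hS : S 0 = 0) (v : Fin (m + 1) → V) :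
    chg (layerQ V m S) (pathMon v) = S m := by
  unfold chg
  rw [Fintype.sum_prod_type]
  have : ∀ i : Fin m, ∑ e : V × V, ((pathMon v (i, e) : ℕ) : ℤ) * layerQ V m S (i, e) =
      S (i + 1) - S i := by
    intro i
    simp [pathMon_apply, layerQ]
  simp_rw [this]
  rw [Fin.sum_univ_eq_sum_range (fun i => S (i + 1) - S i) m, sum_range_sub, hS, sub_zero]

theorem first_moment (o : V) (m : ℕ) (ω : ℕ → ℝ) (hω : ∀ i, 0 ≤ ω i) :
    ∑ C : Fin (m + 1) × V × V → Bool, ∑ R : Fin (m + 1) × V × V → Bool,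
      (∏ x : Fin (m + 1) × V × V, ω x.1 ^ (C x).toNat) * mult (pathPoly ℝ o (m + 1)) R C =
      (∏ i : Fin (m + 1), (1 + ω i) ^ Fintype.card (V × V)) * (∏ i : Fin (m + 1), (1 + ω i)⁻¹) *
        (Fintype.card V : ℝ) ^ m := by
  simp_rw [mult_pathPoly, mul_sum]
  have h1 : ∀ C : Fin (m + 1) × V × V → Bool, ∑ R : Fin (m + 1) × V × V → Bool,
      ∑ v ∈ paths o (m + 1), (∏ x : Fin (m + 1) × V × V, ω x.1 ^ (C x).toNat) *
        (if pathMon v + toF C = toF R then (1 : ℝ) else 0) =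
      ∑ v ∈ paths o (m + 1), ∑ R : Fin (m + 1) × V × V → Bool,
        (∏ x : Fin (m + 1) × V × V, ω x.1 ^ (C x).toNat) *
        (if pathMon v + toF C = toF R then (1 : ℝ) else 0) := fun C => sum_comm
  simp_rw [h1]
  rw [sum_comm]
  have h2 : ∀ v ∈ paths o (m + 1), ∑ C : Fin (m + 1) × V × V → Bool,
      ∑ R : Fin (m + 1) × V × V → Bool, (∏ x : Fin (m + 1) × V × V, ω x.1 ^ (C x).toNat) *
        (if pathMon v + toF C = toF R then (1 : ℝ) else 0) =
      (∏ i : Fin (m + 1), (1 + ω i) ^ Fintype.card (V × V)) *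
        (∏ i : Fin (m + 1), (1 + ω i)⁻¹) := by
    intro v _
    rw [sum_first (fun x : Fin (m + 1) × V × V => ω x.1) (pathMon v), Fintype.prod_prod_type,
      ← prod_mul_distrib]
    refine prod_congr rfl fun i _ => ?_
    simp_rw [pathMon_apply]
    exact layer_first (ω i) (hω i) _
  rw [sum_congr rfl h2, sum_const, nsmul_eq_mul, mul_comm]
  congr 1
  rw [← card_paths m o o, paths, card_filter]
  push_cast
  rfl

theorem sq_sum_expand {σ P : Type*} [Fintype σ] (Ps : Finset P) (χ : P → σ → σ → ℝ) (w : σ → ℝ) :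
    ∑ C, ∑ C', w C * (∑ R, (∑ v ∈ Ps, χ v C R) * (∑ v ∈ Ps, χ v C' R)) ^ 2 =
      ∑ v₁ ∈ Ps, ∑ v₂ ∈ Ps, ∑ v₃ ∈ Ps, ∑ v₄ ∈ Ps, ∑ C, ∑ C', ∑ R, ∑ R',
        w C * (χ v₁ C R * χ v₂ C' R * (χ v₄ C R' * χ v₃ C' R')) := by
  have h1 : ∀ C C' : σ, w C * (∑ R, (∑ v ∈ Ps, χ v C R) * (∑ v ∈ Ps, χ v C' R)) ^ 2 =
      ∑ v₁ ∈ Ps, ∑ v₂ ∈ Ps, ∑ v₃ ∈ Ps, ∑ v₄ ∈ Ps, ∑ R, ∑ R',
        w C * (χ v₁ C R * χ v₂ C' R * (χ v₄ C R' * χ v₃ C' R')) := by
    intro C C'
    have e1 : ∑ R, (∑ v ∈ Ps, χ v C R) * (∑ v ∈ Ps, χ v C' R) =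
        ∑ v₁ ∈ Ps, ∑ v₂ ∈ Ps, ∑ R, χ v₁ C R * χ v₂ C' R := by
      simp_rw [sum_mul_sum]
      rw [sum_comm]
      exact sum_congr rfl fun v₁ _ => sum_comm
    have e2 : ∑ R, (∑ v ∈ Ps, χ v C R) * (∑ v ∈ Ps, χ v C' R) =
        ∑ v₃ ∈ Ps, ∑ v₄ ∈ Ps, ∑ R, χ v₄ C R * χ v₃ C' R := by
      rw [e1, sum_comm]
    rw [sq]
    nth_rewrite 1 [e1]
    rw [e2, sum_mul, mul_sum]
    refine sum_congr rfl fun v₁ _ => ?_
    rw [sum_mul, mul_sum]
    refine sum_congr rfl fun v₂ _ => ?_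
    rw [mul_sum, mul_sum]
    refine sum_congr rfl fun v₃ _ => ?_
    rw [mul_sum, mul_sum]
    refine sum_congr rfl fun v₄ _ => ?_
    rw [sum_mul_sum, mul_sum]
    refine sum_congr rfl fun R _ => ?_
    rw [mul_sum]
  have swap : ∀ (F : σ → σ → P → ℝ),
      ∑ C, ∑ C', ∑ v ∈ Ps, F C C' v = ∑ v ∈ Ps, ∑ C, ∑ C', F C C' v := by
    intro F
    rw [show (∑ C, ∑ C', ∑ v ∈ Ps, F C C' v) = ∑ C, ∑ v ∈ Ps, ∑ C', F C C' v from
      sum_congr rfl fun C _ => sum_comm]
    exact sum_comm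
  simp_rw [h1]
  rw [swap]
  refine sum_congr rfl fun v₁ _ => ?_
  rw [swap]
  refine sum_congr rfl fun v₂ _ => ?_
  rw [swap]
  refine sum_congr rfl fun v₃ _ => ?_
  rw [swap]

omit [Fintype V] in
theorem transfer_apply (ω : ℝ) (a₁ a₂ a₃ a₄ b₁ b₂ b₃ b₄ : V) :
    (transfer ω : Matrix (V × V × V × V) (V × V × V × V) ℝ) (a₁, a₂, a₃, a₄) (b₁, b₂, b₃, b₄) =
      (if (a₁, b₁) = (a₂, b₂) ∧ (a₃, b₃) = (a₄, b₄) then 1 else 0) +
        ω * (if (a₁, b₁) = (a₄, b₄) ∧ (a₂, b₂) = (a₃, b₃) then 1 else 0) := by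
  simp only [transfer, Matrix.of_apply, patA, patB, Prod.mk.injEq, mul_ite, mul_one, mul_zero]
  congr 1
  · split_ifs <;> tauto
  · split_ifs <;> tauto

theorem four_paths (o : V) (m : ℕ) (T : Fin m → Matrix (V × V × V × V) (V × V × V × V) ℝ) :
    ∑ v₁ ∈ paths o m, ∑ v₂ ∈ paths o m, ∑ v₃ ∈ paths o m, ∑ v₄ ∈ paths o m,
      ∏ i : Fin m, T i (v₁ i.castSucc, v₂ i.castSucc, v₃ i.castSucc, v₄ i.castSucc)
        (v₁ i.succ, v₂ i.succ, v₃ i.succ, v₄ i.succ) =
      (List.ofFn T).prod (o, o, o, o) (o, o, o, o) := by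
  rw [ofFn_prod_apply]
  simp only [paths, sum_filter]
  have e : ∀ (P : Prop) [Decidable P] (F : (Fin (m + 1) → V) → ℝ),
      (if P then ∑ v, F v else 0) = ∑ v, if P then F v else 0 := by
    intro P _ F
    split_ifs <;> simp
  simp_rw [e]
  simp_rw [sum_pi_prod]
  refine sum_congr rfl fun u _ => ?_
  simp only [Prod.ext_iff]
  split_ifs <;> tauto

theorem fourth_moment [Nonempty V] (o : V) (m : ℕ) (E : ℕ → ℝ) (M : ℝ) (hE0 : E 0 = 0)
    (hM : ∀ j, Real.exp |E j| ≤ M) :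
    ∑ C : Fin (m + 1) × V × V → Bool, ∑ C' : Fin (m + 1) × V × V → Bool,
      (∏ x : Fin (m + 1) × V × V, Real.exp (E (x.1 + 1) - E x.1) ^ (C x).toNat) *
        (∑ R, mult (pathPoly ℝ o (m + 1)) R C * mult (pathPoly ℝ o (m + 1)) R C') ^ 2 ≤
      (∏ i : Fin (m + 1), (1 + Real.exp (E (i + 1) - E i)) ^ Fintype.card (V × V)) *
        (∏ i : Fin (m + 1), (1 + Real.exp (E (i + 1) - E i))⁻¹) ^ 2 *
        (((Fintype.card V : ℝ) ^ 2 * (1 + M / Fintype.card V)) ^ m * (1 + M)) := by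
  simp_rw [mult_pathPoly]
  rw [sq_sum_expand (paths o (m + 1))
    (fun v C R => if pathMon v + toF C = toF R then (1 : ℝ) else 0)
    (fun C => ∏ x : Fin (m + 1) × V × V, Real.exp (E (x.1 + 1) - E x.1) ^ (C x).toNat)]
  have hΛ0 : 0 ≤ (∏ i : Fin (m + 1), (1 + Real.exp (E (i + 1) - E i)) ^ Fintype.card (V × V)) *
        (∏ i : Fin (m + 1), (1 + Real.exp (E (i + 1) - E i))⁻¹) ^ 2 := by positivity
  have h3 : ∀ v₁ v₂ v₃ v₄ : Fin (m + 2) → V,
      ∏ x : Fin (m + 1) × V × V, phi4 (Real.exp (E (x.1 + 1) - E x.1)) (pathMon v₁ x)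
        (pathMon v₂ x) (pathMon v₃ x) (pathMon v₄ x) =
      (∏ i : Fin (m + 1), (1 + Real.exp (E (i + 1) - E i)) ^ Fintype.card (V × V)) *
        (∏ i : Fin (m + 1), (1 + Real.exp (E (i + 1) - E i))⁻¹) ^ 2 *
      ∏ i : Fin (m + 1),
        (transfer (Real.exp (E (i + 1) - E i)) : Matrix (V × V × V × V) (V × V × V × V) ℝ)
        (v₁ i.castSucc, v₂ i.castSucc, v₃ i.castSucc, v₄ i.castSucc)
        (v₁ i.succ, v₂ i.succ, v₃ i.succ, v₄ i.succ) := by
    intro v₁ v₂ v₃ v₄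
    rw [Fintype.prod_prod_type, ← prod_pow, ← prod_mul_distrib, ← prod_mul_distrib]
    refine prod_congr rfl fun i _ => ?_
    simp_rw [pathMon_apply]
    rw [layer_fourth _ (Real.exp_pos _).le, transfer_apply]
  simp_rw [sum_fourth (fun x : Fin (m + 1) × V × V => Real.exp (E (x.1 + 1) - E x.1)), h3,
    ← mul_sum]
  rw [four_paths o (m + 1) fun i => transfer (Real.exp (E (i + 1) - E i))]
  refine mul_le_mul_of_nonneg_left ?_ hΛ0
  refine (transfer_prod_le o E M hE0 hM m (o, o, o, o)).trans ?_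
  have hM0 : 0 ≤ M := (Real.exp_pos _).le.trans (hM 0)
  gcongr
  · simp [patA]
  · simp only [patB, and_self, if_true, mul_one]
    exact (Real.exp_le_exp.2 (le_abs_self _)).trans (hM _)

theorem mult_pathPoly_nonneg (o : V) (m : ℕ) (R C : Fin m × V × V → Bool) :
    0 ≤ mult (pathPoly ℝ o m) R C := by
  rw [mult_pathPoly]
  exact sum_nonneg fun v _ => by split_ifs <;> norm_num

theorem mult_pathPoly_le_sq (o : V) (m : ℕ) (R C : Fin m × V × V → Bool) :
    mult (pathPoly ℝ o m) R C ≤ mult (pathPoly ℝ o m) R C ^ 2 := by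
  rw [mult_pathPoly, sum_boole]
  exact_mod_cast Nat.le_self_pow two_ne_zero _

theorem chg_of_mult_pathPoly (o : V) (m : ℕ) (S : ℕ → ℤ) (hS : S 0 = 0)
    {R C : Fin m × V × V → Bool} (h : mult (pathPoly ℝ o m) R C ≠ 0) :
    chg (layerQ V m S) (toF R) = chg (layerQ V m S) (toF C) + S m := by
  rw [mult_pathPoly] at h
  obtain ⟨v, _, hv⟩ := exists_ne_zero_of_sum_ne_zero h
  have : pathMon v + toF C = toF R := by
    by_contra hc
    simp [hc] at hv
  rw [← this, chg_add, chg_pathMon S hS, add_comm]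

theorem mu_pathPoly_lower [Nonempty V] (K : Type*) [Field K] [CharZero K] (o : V) (m : ℕ)
    (S : ℕ → ℤ) (hS : S 0 = 0) (κ M : ℝ) (hM : ∀ j, Real.exp |2 * κ * S j| ≤ M) (L : ℕ)
    (hL : ∀ C : Fin (m + 1) × V × V → Bool, |chg (layerQ V (m + 1) S) (toF C)| ≤ L) :
    Zp (layerQ V (m + 1) S) κ ≤
      mu (layerQ V (m + 1) S) (S (m + 1)) κ L (pathPoly K o (m + 1)) *
        ((1 + M / Fintype.card V) ^ m * (1 + M)) := by
  rw [mu_pathPoly_eq]
  set q := layerQ V (m + 1) S with hq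
  have hmem : ∀ C : Fin (m + 1) × V × V → Bool, C ∈ (univ : Finset _) →
      chg q (toF C) ∈ Icc (-(L : ℤ)) L := fun C _ => mem_Icc.2 (abs_le.1 (hL C))
  have hblock : ∀ (β : ℤ) (R C : Fin (m + 1) × V × V → Bool),
      blockM q (S (m + 1)) β (pathPoly ℝ o (m + 1)) R C =
        if chg q (toF C) = β then mult (pathPoly ℝ o (m + 1)) R C else 0 := by
    intro β R C
    unfold blockM
    by_cases h0 : mult (pathPoly ℝ o (m + 1)) R C = 0
    · simp [h0]
    · have := chg_of_mult_pathPoly o (m + 1) S hS h0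
      by_cases h1 : chg q (toF C) = β
      · rw [if_pos h1, if_pos ⟨h1, by rw [← h1]; exact this⟩]
      · rw [if_neg h1, if_neg fun h => h1 h.1]
  set a : ℤ → ℝ := fun β => ∑ C, ∑ R, blockM q (S (m + 1)) β (pathPoly ℝ o (m + 1)) R C ^ 2
    with ha
  set b : ℤ → ℝ := fun β => ∑ C, ∑ C', (∑ R, blockM q (S (m + 1)) β (pathPoly ℝ o (m + 1)) R C *
    blockM q (S (m + 1)) β (pathPoly ℝ o (m + 1)) R C') ^ 2 with hb
  have hCS : (∑ β ∈ Icc (-(L : ℤ)) L, Real.exp (2 * κ * β) * a β) ^ 2 ≤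
      mu q (S (m + 1)) κ L (pathPoly ℝ o (m + 1)) *
        ∑ β ∈ Icc (-(L : ℤ)) L, Real.exp (2 * κ * β) * b β := by
    refine sum_sq_le_sum_mul_sum_of_sq_le_mul _ (fun β _ => by positivity)
      (fun β _ => by simp only [hb]; positivity) fun β _ => ?_
    have := frob_sq_le (blockM q (S (m + 1)) β (pathPoly ℝ o (m + 1)))
    have h2 := Real.exp_pos (2 * κ * β)
    calc (Real.exp (2 * κ * β) * a β) ^ 2 = Real.exp (2 * κ * β) ^ 2 * a β ^ 2 := by ring
      _ ≤ Real.exp (2 * κ * β) ^ 2 *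
          ((blockM q (S (m + 1)) β (pathPoly ℝ o (m + 1))).rank * b β) := by gcongr
      _ = _ := by ring
  have hω : ∀ x : Fin (m + 1) × V × V, Real.exp (2 * κ * q x) =
      Real.exp (2 * κ * S (x.1 + 1) - 2 * κ * S x.1) := by
    intro x
    simp only [hq, layerQ]
    push_cast
    congr 1
    ring
  have fib : ∀ h : (Fin (m + 1) × V × V → Bool) → ℝ,
      ∑ β ∈ Icc (-(L : ℤ)) L, Real.exp (2 * κ * β) *
        ∑ C, (if chg q (toF C) = β then h C else 0) =
      ∑ C, Real.exp (2 * κ * chg q (toF C)) * h C := by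
    intro h
    simp_rw [mul_sum]
    rw [sum_comm]
    refine sum_congr rfl fun C hC => ?_
    rw [sum_eq_single_of_mem _ (hmem C hC)]
    · simp
    · intro β _ hβ
      rw [if_neg (Ne.symm hβ), mul_zero]
  set Z : ℝ := ∏ i : Fin (m + 1),
    (1 + Real.exp (2 * κ * S (i + 1) - 2 * κ * S i)) ^ Fintype.card (V × V) with hZ
  set Λ : ℝ := ∏ i : Fin (m + 1), (1 + Real.exp (2 * κ * S (i + 1) - 2 * κ * S i))⁻¹ with hΛ
  have hZp : Zp q κ = Z := by
    rw [Zp_eq, Fintype.prod_prod_type]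
    refine prod_congr rfl fun i _ => ?_
    simp_rw [hω]
    simp
  have hZ0 : 0 < Z := by positivity
  have hΛ0 : 0 < Λ := by positivity
  have hw : (0 : ℝ) < Fintype.card V := by exact_mod_cast Fintype.card_pos
  have hA : Z * Λ * (Fintype.card V : ℝ) ^ m ≤
      ∑ β ∈ Icc (-(L : ℤ)) L, Real.exp (2 * κ * β) * a β := by
    have e1 : ∀ β, a β = ∑ C, if chg q (toF C) = β then
        ∑ R, mult (pathPoly ℝ o (m + 1)) R C ^ 2 else 0 := by
      intro β
      simp only [ha, hblock]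
      refine sum_congr rfl fun C _ => ?_
      split_ifs <;> simp
    simp_rw [e1]
    rw [fib, ← first_moment o m (fun i => Real.exp (2 * κ * S (i + 1) - 2 * κ * S i))
      fun i => (Real.exp_pos _).le]
    refine sum_le_sum fun C _ => ?_
    rw [exp_chg, mul_sum]
    simp_rw [hω]
    refine sum_le_sum fun R _ => ?_
    exact mul_le_mul_of_nonneg_left (mult_pathPoly_le_sq o _ R C) (by positivity)
  have hB : ∑ β ∈ Icc (-(L : ℤ)) L, Real.exp (2 * κ * β) * b β ≤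
      Z * Λ ^ 2 * (((Fintype.card V : ℝ) ^ 2 * (1 + M / Fintype.card V)) ^ m * (1 + M)) := by
    have e1 : ∀ β, b β ≤ ∑ C, if chg q (toF C) = β then
        ∑ C', (∑ R, mult (pathPoly ℝ o (m + 1)) R C * mult (pathPoly ℝ o (m + 1)) R C') ^ 2
          else 0 := by
      intro β
      simp only [hb, hblock]
      refine sum_le_sum fun C _ => ?_
      split_ifs with h1
      · refine sum_le_sum fun C' _ => ?_
        split_ifs
        · exact le_rfl
        · simp only [mul_zero, sum_const_zero]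
          rw [sq, mul_zero]
          exact sq_nonneg _
      · simp
    refine (sum_le_sum fun β _ => mul_le_mul_of_nonneg_left (e1 β) (Real.exp_pos _).le).trans ?_
    rw [fib]
    refine le_trans (le_of_eq ?_) (fourth_moment o m (fun j => 2 * κ * S j) M (by simp [hS]) hM)
    refine sum_congr rfl fun C _ => ?_
    rw [exp_chg, mul_sum]
    simp_rw [hω]
  have hmu : 0 ≤ mu q (S (m + 1)) κ L (pathPoly ℝ o (m + 1)) :=
    sum_nonneg fun β _ => by positivity
  have key : (Z * Λ * (Fintype.card V : ℝ) ^ m) ^ 2 ≤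
      mu q (S (m + 1)) κ L (pathPoly ℝ o (m + 1)) *
        (Z * Λ ^ 2 * (((Fintype.card V : ℝ) ^ 2 * (1 + M / Fintype.card V)) ^ m * (1 + M))) := by
    refine le_trans ?_ (hCS.trans (mul_le_mul_of_nonneg_left hB hmu))
    gcongr
  rw [hZp]
  have hpos : 0 < Z * Λ ^ 2 * ((Fintype.card V : ℝ) ^ 2) ^ m := by positivity
  refine le_of_mul_le_mul_left ?_ hpos
  calc Z * Λ ^ 2 * ((Fintype.card V : ℝ) ^ 2) ^ m * Z
      = (Z * Λ * (Fintype.card V : ℝ) ^ m) ^ 2 := by ring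
    _ ≤ _ := key
    _ = _ := by rw [mul_pow]; ring

end Crest.Agent.R327
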