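import Mathlib
import Crest.Agent.R327.Circuit
import Crest.Agent.R327.Lower

/-! Assembling the depth-five lower bound (row 327). -/

set_option autoImplicit false

namespace Crest.Agent.R327

open MvPolynomial Finset Crest.ArithCircuit

/-- Partial sums of the layer charges. -/
def pre (s : ℕ) : ℕ → ℤ
  | 0 => 0
  | j + 1 => if 0 < pre s j then pre s j + (1 - 4 * s) else pre s j + (1 + 4 * s)

theorem pre_step (s j : ℕ) :
    pre s (j + 1) - pre s j = 1 + 4 * s ∨ pre s (j + 1) - pre s j = 1 - 4 * s := by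
  rw [pre]
  split_ifs
  · right; ring
  · left; ring

theorem pre_bound {s : ℕ} (hs : 0 < s) : ∀ j, -(4 * s : ℤ) ≤ pre s j ∧ pre s j ≤ 4 * s + 1
  | 0 => by simp only [pre]; omega
  | j + 1 => by
    have := pre_bound hs j
    rw [pre]
    split_ifs <;> omega

theorem abs_pre_le {s : ℕ} (hs : 0 < s) (j : ℕ) : |pre s j| ≤ 5 * s := by
  have := pre_bound hs j
  rw [abs_le]
  omega

theorem imm_eq (K : Type*) [Field K] (m : ℕ) :
    imm K (m + 1) = pathPoly K (0 : Fin (m + 1)) (m + 1) := by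
  rw [← prod_eq_pathPoly]
  rfl

theorem pathPoly_hom (K : Type*) [Field K] {V : Type*} [Fintype V] [DecidableEq V] (o : V)
    (m : ℕ) : (pathPoly K o m).IsHomogeneous m := by
  refine IsHomogeneous.sum _ _ _ fun v _ => isHomogeneous_monomial _ ?_
  simp [pathMon, map_sum]

theorem core (K : Type*) [Field K] [CharZero K] {L B P S R : Type*} [Fintype L] [Fintype B]
    [Fintype P] [Fintype S] [Fintype R] (m s : ℕ) (hs : 16 ≤ s) (h1 : s ^ 2 ≤ m + 1)
    (h2 : m + 1 < (s + 1) ^ 2)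
    (C : SPSPS K (Fin (m + 1) × Fin (m + 1) × Fin (m + 1)) L B P S R) (hC : C.IsHomogeneous)
    (hout : C.output = imm K (m + 1)) :
    Real.exp (s * Real.log s / 10) ≤ Real.exp (13 * s) * (C.size : ℝ) ^ 2 := by
  have hs0 : 0 < s := by omega
  have hsR : (16 : ℝ) ≤ s := by exact_mod_cast hs
  have hsp : (0 : ℝ) < s := by linarith
  set κ : ℝ := Real.log s / (10 * s) with hκdef
  have hlog : 4 * Real.log 2 ≤ Real.log s := by
    have : Real.log 16 = 4 * Real.log 2 := by
      rw [show (16 : ℝ) = 2 ^ 4 by norm_num, Real.log_pow]; norm_num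
    rw [← this]
    exact Real.log_le_log (by norm_num) hsR
  have hlog2 : 0 < Real.log 2 := Real.log_pos (by norm_num)
  have hκ : 0 ≤ κ := by
    have : 0 ≤ Real.log s := by linarith
    positivity
  have hκs : κ * (10 * s) = Real.log s := by
    rw [hκdef]; field_simp
  set q := layerQ (Fin (m + 1)) (m + 1) (pre s) with hq
  have hq' : ∀ x, q x = 1 + 4 * s ∨ q x = 1 - 4 * s := fun x => pre_step s x.1
  have hM : ∀ j, Real.exp |2 * κ * pre s j| ≤ s := by
    intro j
    have h3 : |((pre s j : ℤ) : ℝ)| ≤ 5 * s := by exact_mod_cast abs_pre_le hs0 j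
    rw [abs_mul, abs_of_nonneg (by positivity : 0 ≤ 2 * κ)]
    calc Real.exp (2 * κ * |((pre s j : ℤ) : ℝ)|) ≤ Real.exp (Real.log s) := by
          rw [Real.exp_le_exp, ← hκs]
          nlinarith
      _ = s := Real.exp_log hsp
  set Lb : ℕ := 5 * s * (m + 1) ^ 3 with hLb
  have hL : ∀ D : Fin (m + 1) × Fin (m + 1) × Fin (m + 1) → Bool, |chg q (toF D)| ≤ Lb := by
    intro D
    unfold chg
    refine (abs_sum_le_sum_abs _ _).trans ?_
    have : ∀ x : Fin (m + 1) × Fin (m + 1) × Fin (m + 1),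
        |((toF D x : ℕ) : ℤ) * q x| ≤ 5 * s := by
      intro x
      have h3 : |q x| ≤ 5 * s := by
        rcases hq' x with h | h <;> rw [h, abs_le] <;> omega
      rw [toF_apply]
      cases D x
      · simp
      · simpa using h3
    refine (sum_le_sum fun x _ => this x).trans (le_of_eq ?_)
    simp [hLb]
    ring
  have hlow := mu_pathPoly_lower K (0 : Fin (m + 1)) m (pre s) rfl κ s hM Lb hL
  rw [← hq, ← imm_eq, ← hout, Fintype.card_fin] at hlow
  have hZ := Zp_pos q κ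
  have hne : C.output ≠ 0 := by
    intro h0
    rw [h0, mu_zero, zero_mul] at hlow
    linarith
  have hdeg : C.degOut = m + 1 := by
    refine IsHomogeneous.inj_right (output_hom hC) ?_ hne
    rw [hout, imm_eq]
    exact pathPoly_hom K _ _
  have hcast : ((4 * s - 1 : ℤ) : ℝ) = 4 * s - 1 := by push_cast; ring
  have hρ : 2 * Real.exp (-κ * ((4 * s - 1 : ℤ) : ℝ)) ≤ 1 := by
    rw [hcast]
    have : Real.exp (-κ * (4 * s - 1)) ≤ Real.exp (-Real.log 2) := by
      rw [Real.exp_le_exp]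
      nlinarith
    rw [Real.exp_neg, Real.exp_log (by norm_num)] at this
    linarith
  have hup := (bd_output (ε := pre s (m + 1)) (Lb := Lb) C hC hq' hs0 hκ hdeg h2 hρ).mu_le
  set η : ℝ := Real.exp (-(s * Real.log s / 10)) with hη
  have hη0 : 0 < η := Real.exp_pos _
  have hηe : η = Real.exp (-κ * s ^ 2) := by
    rw [hη, ← hκs]; congr 1; ring
  have hsz : (0 : ℝ) ≤ C.size := Nat.cast_nonneg _
  have hP : (Fintype.card P : ℝ) ≤ C.size := by
    exact_mod_cast (show Fintype.card P ≤ C.size by unfold SPSPS.size; omega)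
  have hR : (Fintype.card R : ℝ) ≤ C.size := by
    exact_mod_cast (show Fintype.card R ≤ C.size by unfold SPSPS.size; omega)
  have hS1 : (1 : ℝ) ≤ C.size := by
    exact_mod_cast (show 1 ≤ C.size by unfold SPSPS.size; omega)
  have hes : (s : ℝ) ≤ Real.exp s := by linarith [Real.add_one_le_exp (s : ℝ)]
  have h2s : (2 : ℝ) ^ s ≤ Real.exp s := by
    have : (2 : ℝ) ≤ Real.exp 1 := by linarith [Real.add_one_le_exp (1 : ℝ)]
    calc (2 : ℝ) ^ s ≤ Real.exp 1 ^ s := by gcongr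
      _ = Real.exp s := by rw [← Real.exp_nat_mul, mul_one]
  have a1 : (2 * Real.exp (-κ * ((4 * s - 1 : ℤ) : ℝ))) ^ s ≤ Real.exp s * η := by
    rw [mul_pow, hcast, ← Real.exp_nat_mul, hηe]
    refine mul_le_mul h2s (Real.exp_le_exp.2 ?_) (Real.exp_pos _).le (Real.exp_pos _).le
    have : 0 ≤ κ * s * (3 * s - 1) := by
      have : (0 : ℝ) ≤ 3 * s - 1 := by linarith
      positivity
    linarith
  have a2 : Real.exp (-κ * ((m + 1 : ℕ) : ℝ)) ≤ η := by
    rw [hηe, Real.exp_le_exp]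
    have : (s : ℝ) ^ 2 ≤ ((m + 1 : ℕ) : ℝ) := by exact_mod_cast h1
    nlinarith
  have a3 : (Fintype.card R : ℝ) *
      (Fintype.card P * (2 * Real.exp (-κ * ((4 * s - 1 : ℤ) : ℝ))) ^ s * 2 +
        2 ^ (s + 3) * Real.exp (-κ * ((m + 1 : ℕ) : ℝ))) ≤
      C.size * (C.size * (10 * Real.exp s * η)) := by
    gcongr
    have b1 : (Fintype.card P : ℝ) * (2 * Real.exp (-κ * ((4 * s - 1 : ℤ) : ℝ))) ^ s * 2 ≤
        C.size * (Real.exp s * η) * 2 := by gcongr
    have b2 : (2 : ℝ) ^ (s + 3) * Real.exp (-κ * ((m + 1 : ℕ) : ℝ)) ≤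
        C.size * (8 * (Real.exp s * η)) := by
      rw [pow_add]
      calc (2 : ℝ) ^ s * 2 ^ 3 * Real.exp (-κ * ((m + 1 : ℕ) : ℝ))
          ≤ Real.exp s * 2 ^ 3 * η := by gcongr
        _ = 1 * (8 * (Real.exp s * η)) := by ring
        _ ≤ _ := by gcongr
    linarith
  have a4 : Real.exp (-κ * ((pre s (m + 1) : ℤ) : ℝ)) ≤ s := by
    refine le_trans ?_ (hM (m + 1))
    rw [Real.exp_le_exp, abs_mul, abs_of_nonneg (by positivity : 0 ≤ 2 * κ)]
    have := neg_le_abs ((pre s (m + 1) : ℤ) : ℝ)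
    have := abs_nonneg ((pre s (m + 1) : ℤ) : ℝ)
    nlinarith
  have a5 : (2 * (Lb : ℝ) + 1) ≤ 641 * s ^ 7 := by
    have : 2 * Lb + 1 ≤ 641 * s ^ 7 := by
      have c1 : m + 1 ≤ 4 * s ^ 2 := by nlinarith
      have c2 : (m + 1) ^ 3 ≤ (4 * s ^ 2) ^ 3 := Nat.pow_le_pow_left c1 3
      have c3 : 1 ≤ s ^ 7 := Nat.one_le_pow _ _ hs0
      have c4 : 5 * s * (m + 1) ^ 3 ≤ 5 * s * (4 * s ^ 2) ^ 3 := Nat.mul_le_mul_left _ c2
      have c5 : 5 * s * (4 * s ^ 2) ^ 3 = 320 * s ^ 7 := by ring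
      omega
    exact_mod_cast this
  have a6 : (1 + (s : ℝ) / ((m + 1 : ℕ) : ℝ)) ^ m ≤ Real.exp s := by
    have hn : (0 : ℝ) < ((m + 1 : ℕ) : ℝ) := by positivity
    calc (1 + (s : ℝ) / ((m + 1 : ℕ) : ℝ)) ^ m ≤ Real.exp ((s : ℝ) / ((m + 1 : ℕ) : ℝ)) ^ m := by
          gcongr
          linarith [Real.add_one_le_exp ((s : ℝ) / ((m + 1 : ℕ) : ℝ))]
      _ = Real.exp (m * ((s : ℝ) / ((m + 1 : ℕ) : ℝ))) := by rw [← Real.exp_nat_mul]
      _ ≤ Real.exp s := by
          rw [Real.exp_le_exp, mul_div_assoc', div_le_iff₀ hn]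
          push_cast
          nlinarith
  have b : Zp q κ * 1 ≤ Zp q κ * (641 * s ^ 7 * s * (C.size * (C.size * (10 * Real.exp s * η))) *
      (Real.exp s * (1 + s))) := by
    calc Zp q κ * 1 = Zp q κ := mul_one _
      _ ≤ _ := hlow
      _ ≤ (641 * s ^ 7 * s * Zp q κ * (C.size * (C.size * (10 * Real.exp s * η)))) *
          (Real.exp s * (1 + s)) := by
          gcongr
          refine hup.trans ?_
          gcongr
      _ = _ := by ring
  have b2 := le_of_mul_le_mul_left b hZ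
  have c1 : (641 : ℝ) * 10 * 2 ≤ Real.exp s * Real.exp s := by
    have : (16 : ℝ) ^ 2 / 2 ≤ Real.exp s := by
      have := Real.pow_div_factorial_le_exp (s : ℝ) hsp.le 2
      have h3 : (16 : ℝ) ^ 2 ≤ (s : ℝ) ^ 2 := by gcongr
      norm_num [Nat.factorial] at this ⊢
      linarith
    nlinarith
  have c2 : (641 : ℝ) * s ^ 7 * s * 10 * Real.exp s * (Real.exp s * (1 + s)) ≤
      Real.exp (13 * s) := by
    have e13 : Real.exp (13 * s) = Real.exp s ^ 13 := by
      rw [← Real.exp_nat_mul]; norm_num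
    calc (641 : ℝ) * s ^ 7 * s * 10 * Real.exp s * (Real.exp s * (1 + s))
        ≤ 641 * s ^ 7 * s * 10 * Real.exp s * (Real.exp s * (2 * s)) := by
          gcongr; linarith
      _ = (641 * 10 * 2) * s ^ 9 * Real.exp s ^ 2 := by ring
      _ ≤ (Real.exp s * Real.exp s) * Real.exp s ^ 9 * Real.exp s ^ 2 := by gcongr
      _ = _ := by rw [e13]; ring
  have d : Real.exp (s * Real.log s / 10) * η = 1 := by
    rw [hη, ← Real.exp_add]; simp
  calc Real.exp (s * Real.log s / 10) = Real.exp (s * Real.log s / 10) * 1 := (mul_one _).symm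
    _ ≤ Real.exp (s * Real.log s / 10) *
        (641 * s ^ 7 * s * (C.size * (C.size * (10 * Real.exp s * η))) *
          (Real.exp s * (1 + s))) := by gcongr
    _ = (Real.exp (s * Real.log s / 10) * η) *
        (641 * s ^ 7 * s * 10 * Real.exp s * (Real.exp s * (1 + s))) * (C.size : ℝ) ^ 2 := by
        ring
    _ ≤ _ := by
        rw [d, one_mul]
        exact mul_le_mul_of_nonneg_right c2 (sq_nonneg _)

theorem numeric (n s : ℕ) (x : ℝ) (hx : 0 ≤ x) (hs : Real.exp 220 ≤ s) (h2 : n < (s + 1) ^ 2)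
    (hn : 0 < n) (h : Real.exp (s * Real.log s / 10) ≤ Real.exp (13 * s) * x ^ 2) :
    (n : ℝ) ^ (Real.sqrt n / 400) ≤ x := by
  have hs2 : (2 : ℝ) ≤ s := by linarith [Real.add_one_le_exp (220 : ℝ)]
  have hsp : (0 : ℝ) < s := by linarith
  have hlog : 220 ≤ Real.log s := by
    rw [Real.le_log_iff_exp_le hsp]; exact hs
  have hnR : (0 : ℝ) < n := by exact_mod_cast hn
  have h2R : (n : ℝ) ≤ ((s : ℝ) + 1) ^ 2 := by exact_mod_cast h2.le
  have hsq : Real.sqrt n ≤ 2 * s := by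
    rw [Real.sqrt_le_left (by positivity)]
    nlinarith
  have hlogn : Real.log n ≤ 4 * Real.log s := by
    have e : 4 * Real.log s = Real.log ((s : ℝ) ^ 4) := by rw [Real.log_pow]; norm_num
    rw [e]
    refine Real.log_le_log hnR (h2R.trans ?_)
    have : (s : ℝ) + 1 ≤ s ^ 2 := by nlinarith
    calc ((s : ℝ) + 1) ^ 2 ≤ ((s : ℝ) ^ 2) ^ 2 := by gcongr
      _ = (s : ℝ) ^ 4 := by ring
  have hlogn0 : 0 ≤ Real.log n := Real.log_natCast_nonneg n
  rw [Real.rpow_def_of_pos hnR]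
  have key : Real.exp (Real.log n * (Real.sqrt n / 400)) ^ 2 ≤ x ^ 2 := by
    have h3 : Real.exp (13 * s) * Real.exp (Real.log n * (Real.sqrt n / 400)) ^ 2 ≤
        Real.exp (s * Real.log s / 10) := by
      rw [← Real.exp_nat_mul, ← Real.exp_add, Real.exp_le_exp]
      have h4 : Real.log n * Real.sqrt n ≤ 4 * Real.log s * (2 * s) := by
        have := Real.sqrt_nonneg (n : ℝ)
        gcongr
      push_cast
      nlinarith
    exact le_of_mul_le_mul_left (h3.trans h) (Real.exp_pos _)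
  exact (pow_le_pow_iff_left₀ (Real.exp_pos _).le hx two_ne_zero).1 key

end Crest.Agent.R327
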