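import Mathlib
import Crest.Prelude.Def_SPSPS

/-! Reindexing a depth-five circuit along equivalences of its layers (row 327). -/

set_option autoImplicit false

namespace Crest.Agent.R327

open MvPolynomial Finset Crest.ArithCircuit

variable {K ι L B P S R L' B' P' S' R' : Type*}

/-- Transport of a circuit along equivalences of the index types. -/
def reindex (C : SPSPS K ι L B P S R) (eL : L ≃ L') (eB : B ≃ B') (eP : P ≃ P') (eS : S ≃ S')
    (eR : R ≃ R') : SPSPS K ι L' B' P' S' R' where
  leaf l := C.leaf (eL.symm l)
  inB b := (C.inB (eB.symm b)).map eL.toEmbedding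
  coefB b l := C.coefB (eB.symm b) (eL.symm l)
  inP p := (C.inP (eP.symm p)).map eB
  inS s := (C.inS (eS.symm s)).map eP.toEmbedding
  coefS s p := C.coefS (eS.symm s) (eP.symm p)
  inR r := (C.inR (eR.symm r)).map eS
  inOut := C.inOut.map eR.toEmbedding
  coefOut r := C.coefOut (eR.symm r)

variable (C : SPSPS K ι L B P S R) (eL : L ≃ L') (eB : B ≃ B') (eP : P ≃ P') (eS : S ≃ S')
  (eR : R ≃ R')

theorem reindex_leafDeg (l : L) : (reindex C eL eB eP eS eR).leafDeg (eL l) = C.leafDeg l := by
  simp [SPSPS.leafDeg, reindex]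

theorem reindex_degB (b : B) : (reindex C eL eB eP eS eR).degB (eB b) = C.degB b := by
  unfold SPSPS.degB
  have : (reindex C eL eB eP eS eR).inB (eB b) = (C.inB b).map eL.toEmbedding := by
    simp [reindex]
  rw [this, sup_map]
  exact congrArg _ (funext fun l => reindex_leafDeg C eL eB eP eS eR l)

theorem reindex_degP (p : P) : (reindex C eL eB eP eS eR).degP (eP p) = C.degP p := by
  unfold SPSPS.degP
  have : (reindex C eL eB eP eS eR).inP (eP p) = (C.inP p).map eB := by simp [reindex]
  rw [this, Multiset.map_map]
  exact congrArg _ (Multiset.map_congr rfl fun b _ => reindex_degB C eL eB eP eS eR b)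

theorem reindex_degS (s : S) : (reindex C eL eB eP eS eR).degS (eS s) = C.degS s := by
  unfold SPSPS.degS
  have : (reindex C eL eB eP eS eR).inS (eS s) = (C.inS s).map eP.toEmbedding := by
    simp [reindex]
  rw [this, sup_map]
  exact congrArg _ (funext fun l => reindex_degP C eL eB eP eS eR l)

theorem reindex_degR (r : R) : (reindex C eL eB eP eS eR).degR (eR r) = C.degR r := by
  unfold SPSPS.degR
  have : (reindex C eL eB eP eS eR).inR (eR r) = (C.inR r).map eS := by simp [reindex]
  rw [this, Multiset.map_map]
  exact congrArg _ (Multiset.map_congr rfl fun b _ => reindex_degS C eL eB eP eS eR b)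

theorem reindex_degOut : (reindex C eL eB eP eS eR).degOut = C.degOut := by
  unfold SPSPS.degOut
  have : (reindex C eL eB eP eS eR).inOut = C.inOut.map eR.toEmbedding := rfl
  rw [this, sup_map]
  exact congrArg _ (funext fun l => reindex_degR C eL eB eP eS eR l)

theorem reindex_isHomogeneous (h : C.IsHomogeneous) :
    (reindex C eL eB eP eS eR).IsHomogeneous := by
  refine ⟨fun b l hl => ?_, fun s p hp => ?_, fun r hr => ?_⟩
  · obtain ⟨b, rfl⟩ := eB.surjective b
    obtain ⟨l, rfl⟩ := eL.surjective l
    rw [reindex_leafDeg, reindex_degB]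
    exact h.1 b l (by simpa [reindex] using hl)
  · obtain ⟨s, rfl⟩ := eS.surjective s
    obtain ⟨p, rfl⟩ := eP.surjective p
    rw [reindex_degP, reindex_degS]
    exact h.2.1 s p (by simpa [reindex] using hp)
  · obtain ⟨r, rfl⟩ := eR.surjective r
    rw [reindex_degR, reindex_degOut]
    exact h.2.2 r (by simpa [reindex] using hr)

variable [CommSemiring K]

theorem reindex_leafVal (l : L) : (reindex C eL eB eP eS eR).leafVal (eL l) = C.leafVal l := by
  simp [SPSPS.leafVal, reindex]

theorem reindex_valB (b : B) : (reindex C eL eB eP eS eR).valB (eB b) = C.valB b := by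
  unfold SPSPS.valB
  have : (reindex C eL eB eP eS eR).inB (eB b) = (C.inB b).map eL.toEmbedding := by
    simp [reindex]
  rw [this, sum_map]
  refine sum_congr rfl fun l _ => ?_
  rw [Equiv.toEmbedding_apply, reindex_leafVal]
  simp [reindex]

theorem reindex_valP (p : P) : (reindex C eL eB eP eS eR).valP (eP p) = C.valP p := by
  unfold SPSPS.valP
  have : (reindex C eL eB eP eS eR).inP (eP p) = (C.inP p).map eB := by simp [reindex]
  rw [this, Multiset.map_map]
  exact congrArg _ (Multiset.map_congr rfl fun b _ => reindex_valB C eL eB eP eS eR b)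

theorem reindex_valS (s : S) : (reindex C eL eB eP eS eR).valS (eS s) = C.valS s := by
  unfold SPSPS.valS
  have : (reindex C eL eB eP eS eR).inS (eS s) = (C.inS s).map eP.toEmbedding := by
    simp [reindex]
  rw [this, sum_map]
  refine sum_congr rfl fun l _ => ?_
  rw [Equiv.toEmbedding_apply, reindex_valP]
  simp [reindex]

theorem reindex_valR (r : R) : (reindex C eL eB eP eS eR).valR (eR r) = C.valR r := by
  unfold SPSPS.valR
  have : (reindex C eL eB eP eS eR).inR (eR r) = (C.inR r).map eS := by simp [reindex]
  rw [this, Multiset.map_map]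
  exact congrArg _ (Multiset.map_congr rfl fun b _ => reindex_valS C eL eB eP eS eR b)

theorem reindex_output : (reindex C eL eB eP eS eR).output = C.output := by
  unfold SPSPS.output
  have : (reindex C eL eB eP eS eR).inOut = C.inOut.map eR.toEmbedding := rfl
  rw [this, sum_map]
  refine sum_congr rfl fun l _ => ?_
  rw [Equiv.toEmbedding_apply, reindex_valR]
  simp [reindex]

theorem exists_fin_circuit [Fintype L] [Fintype B] [Fintype P] [Fintype S] [Fintype R]
    (h : C.IsHomogeneous) :
    ∃ (l b p s r : ℕ) (C' : SPSPS K ι (Fin l) (Fin b) (Fin p) (Fin s) (Fin r)),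
      C'.IsHomogeneous ∧ C'.output = C.output ∧ C'.size = C.size :=
  ⟨_, _, _, _, _, reindex C (Fintype.equivFin L) (Fintype.equivFin B) (Fintype.equivFin P)
    (Fintype.equivFin S) (Fintype.equivFin R), reindex_isHomogeneous _ _ _ _ _ _ h,
    reindex_output _ _ _ _ _ _, by simp [SPSPS.size]⟩

end Crest.Agent.R327
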