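import Mathlib
import Crest.Agent.R327.Reindex
import Crest.Agent.R327.Lower

/-! The depth-five circuit for iterated matrix multiplication (row 327). -/

set_option autoImplicit false

namespace Crest.Agent.R327

open MvPolynomial Finset Crest.ArithCircuit

variable (K : Type*) [Field K]

/-- Variable matrices padded by identities. -/
noncomputable def padM (n j : ℕ) :
    Matrix (Fin n) (Fin n) (MvPolynomial (Fin n × Fin n × Fin n) K) :=
  if h : j < n then varMatrix K n ⟨j, h⟩ else 1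

theorem prod_padM (n N : ℕ) (h : n ≤ N) :
    (List.ofFn fun j : Fin N => padM K n j).prod = (List.ofFn (varMatrix K n)).prod := by
  obtain ⟨k, rfl⟩ := Nat.exists_eq_add_of_le h
  rw [List.ofFn_add, List.prod_append]
  have h1 : (List.ofFn fun i : Fin k => padM K n ((Fin.natAdd n i : Fin (n + k)) : ℕ)).prod = 1 := by
    refine List.prod_eq_one ?_
    intro x hx
    obtain ⟨i, rfl⟩ := List.mem_ofFn.1 hx
    simp [padM]
  rw [h1, mul_one]
  congr 2
  funext i
  simp [padM]

theorem prod_blocks (n r t : ℕ) :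
    (List.ofFn fun j : Fin (r * t) => padM K n j).prod =
      (List.ofFn fun ρ : Fin r => (List.ofFn fun i : Fin t => padM K n (ρ * t + i)).prod).prod := by
  rw [List.ofFn_mul, List.prod_flatten, List.map_ofFn]
  rfl

/-- The circuit. -/
noncomputable def immC (m r t : ℕ) :
    SPSPS K (Fin (m + 1) × Fin (m + 1) × Fin (m + 1)) (Fin (m + 1) × Fin (m + 1) × Fin (m + 1))
      (Fin (m + 1) × Fin (m + 1) × Fin (m + 1)) (Fin r × (Fin (t + 1) → Fin (m + 1)))
      (Fin r × Fin (m + 1) × Fin (m + 1)) ↥(paths (0 : Fin (m + 1)) r) where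
  leaf l := Sum.inl l
  inB b := {b}
  coefB _ _ := 1
  inP p := ∑ i : Fin t,
    if h : p.1 * t + i < m + 1 then {(⟨p.1 * t + i, h⟩, p.2 i.castSucc, p.2 i.succ)} else 0
  inS s := univ.filter fun p => p.1 = s.1 ∧ p.2 0 = s.2.1 ∧ p.2 (Fin.last t) = s.2.2
  coefS _ p := ∏ i : Fin t,
    if p.1 * t + i < m + 1 then 1 else if p.2 i.castSucc = p.2 i.succ then 1 else 0
  inR u := (univ : Finset (Fin r)).val.map fun ρ => (ρ, u.1 ρ.castSucc, u.1 ρ.succ)
  inOut := univ
  coefOut _ := 1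

variable (m r t : ℕ)

theorem immC_valB (b : Fin (m + 1) × Fin (m + 1) × Fin (m + 1)) :
    (immC K m r t).valB b = X b := by
  simp [SPSPS.valB, immC, SPSPS.leafVal]

theorem immC_degB (b : Fin (m + 1) × Fin (m + 1) × Fin (m + 1)) :
    (immC K m r t).degB b = 1 := by
  simp [SPSPS.degB, immC, SPSPS.leafDeg]

theorem immC_valP (p : Fin r × (Fin (t + 1) → Fin (m + 1))) :
    (immC K m r t).valP p = ∏ i : Fin t, if h : p.1 * t + i < m + 1 then
      X (⟨p.1 * t + i, h⟩, p.2 i.castSucc, p.2 i.succ) else 1 := by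
  unfold SPSPS.valP
  have : (immC K m r t).inP p = ∑ i : Fin t,
    if h : p.1 * t + i < m + 1 then {(⟨p.1 * t + i, h⟩, p.2 i.castSucc, p.2 i.succ)} else 0 := rfl
  rw [this, ← Multiset.coe_mapAddMonoidHom, map_sum, Multiset.prod_sum]
  refine prod_congr rfl fun i _ => ?_
  split_ifs <;> simp [immC_valB]

theorem immC_degP (p : Fin r × (Fin (t + 1) → Fin (m + 1))) :
    (immC K m r t).degP p = ∑ i : Fin t, if p.1 * t + i < m + 1 then 1 else 0 := by
  unfold SPSPS.degP
  have : (immC K m r t).inP p = ∑ i : Fin t,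
    if h : p.1 * t + i < m + 1 then {(⟨p.1 * t + i, h⟩, p.2 i.castSucc, p.2 i.succ)} else 0 := rfl
  rw [this, ← Multiset.coe_mapAddMonoidHom, map_sum, Multiset.sum_sum]
  refine sum_congr rfl fun i _ => ?_
  split_ifs <;> simp [immC_degB]

theorem immC_valS (ρ : Fin r) (a b : Fin (m + 1)) :
    (immC K m r t).valS (ρ, a, b) =
      (List.ofFn fun i : Fin t => padM K (m + 1) (ρ * t + i)).prod a b := by
  rw [ofFn_prod_apply]
  unfold SPSPS.valS
  have : (immC K m r t).inS (ρ, a, b) =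
    univ.filter fun p => p.1 = ρ ∧ p.2 0 = a ∧ p.2 (Fin.last t) = b := rfl
  rw [this, sum_filter, Fintype.sum_prod_type, sum_eq_single ρ]
  · refine sum_congr rfl fun v _ => ?_
    simp only [true_and]
    split_ifs with h
    · rw [immC_valP]
      have e : (immC K m r t).coefS (ρ, a, b) (ρ, v) = ∏ i : Fin t,
        if ρ * t + i < m + 1 then 1 else if v i.castSucc = v i.succ then 1 else 0 := rfl
      rw [e, smul_eq_C_mul, map_prod, ← prod_mul_distrib]
      refine prod_congr rfl fun i _ => ?_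
      unfold padM
      by_cases hi : ρ * t + i < m + 1
      · simp [hi, varMatrix]
      · simp only [hi, if_false, dif_neg, not_false_eq_true, mul_one, Matrix.one_apply]
        split_ifs <;> simp
    · rfl
  · intro ρ' _ hρ
    simp [hρ]
  · simp

theorem immC_degS (ht : 0 < t) (ρ : Fin r) (a b : Fin (m + 1)) :
    (immC K m r t).degS (ρ, a, b) = ∑ i : Fin t, if ρ * t + i < m + 1 then 1 else 0 := by
  unfold SPSPS.degS
  have : (immC K m r t).inS (ρ, a, b) =
    univ.filter fun p => p.1 = ρ ∧ p.2 0 = a ∧ p.2 (Fin.last t) = b := rfl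
  rw [this]
  apply le_antisymm
  · refine Finset.sup_le fun p hp => ?_
    rw [immC_degP, (mem_filter.1 hp).2.1]
  · have hmem : ((ρ, fun i => if i = 0 then a else b) : Fin r × (Fin (t + 1) → Fin (m + 1))) ∈
        univ.filter fun p : Fin r × (Fin (t + 1) → Fin (m + 1)) =>
          p.1 = ρ ∧ p.2 0 = a ∧ p.2 (Fin.last t) = b := by
      have : Fin.last t ≠ 0 := by
        intro h
        have := congrArg Fin.val h
        simp at this
        omega
      simp [this]
    have := Finset.le_sup (f := (immC K m r t).degP) hmem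
    rwa [immC_degP] at this

theorem immC_degR (ht : 0 < t) (u : ↥(paths (0 : Fin (m + 1)) r)) :
    (immC K m r t).degR u = ∑ ρ : Fin r, ∑ i : Fin t, if ρ * t + i < m + 1 then 1 else 0 := by
  unfold SPSPS.degR
  have : (immC K m r t).inR u =
    (univ : Finset (Fin r)).val.map fun ρ => (ρ, u.1 ρ.castSucc, u.1 ρ.succ) := rfl
  rw [this, Multiset.map_map]
  exact sum_congr rfl fun ρ _ => immC_degS K m r t ht ρ _ _

theorem immC_hom (ht : 0 < t) : (immC K m r t).IsHomogeneous := by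
  refine ⟨fun b l hl => ?_, fun s p hp => ?_, fun u hu => ?_⟩
  · rw [immC_degB]
    rfl
  · obtain ⟨ρ, a, b⟩ := s
    rw [immC_degS K m r t ht, immC_degP]
    have : p.1 = ρ := (mem_filter.1 hp).2.1
    rw [this]
  · unfold SPSPS.degOut
    apply le_antisymm (Finset.le_sup (f := (immC K m r t).degR) hu)
    refine Finset.sup_le fun u' _ => ?_
    rw [immC_degR K m r t ht, immC_degR K m r t ht]

theorem immC_output (h : m + 1 ≤ r * t) : (immC K m r t).output = imm K (m + 1) := by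
  have e1 : imm K (m + 1) = (List.ofFn (varMatrix K (m + 1))).prod 0 0 := rfl
  rw [e1, ← prod_padM K (m + 1) (r * t) h, prod_blocks, ofFn_prod_apply, ← sum_filter]
  unfold SPSPS.output
  have e2 : (immC K m r t).inOut = univ := rfl
  rw [e2]
  refine Eq.trans ?_ (sum_coe_sort (paths (0 : Fin (m + 1)) r) _)
  refine sum_congr rfl fun u _ => ?_
  have e3 : (immC K m r t).coefOut u = 1 := rfl
  rw [e3, one_smul]
  unfold SPSPS.valR
  have : (immC K m r t).inR u =
    (univ : Finset (Fin r)).val.map fun ρ => (ρ, u.1 ρ.castSucc, u.1 ρ.succ) := rfl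
  rw [this, Multiset.map_map]
  exact prod_congr rfl fun ρ _ => immC_valS K m r t ρ _ _

theorem card_paths_nat (r' : ℕ) : (paths (0 : Fin (m + 1)) (r' + 1)).card = (m + 1) ^ r' := by
  have := card_paths r' (0 : Fin (m + 1)) 0
  rw [sum_boole, Fintype.card_fin] at this
  exact_mod_cast this

theorem immC_size (r' : ℕ) : (immC K m (r' + 1) t).size =
    2 * (m + 1) ^ 3 + (r' + 1) * (m + 1) ^ 2 + (r' + 1) * (m + 1) ^ (t + 1) + (m + 1) ^ r' + 1 := by
  unfold SPSPS.size
  rw [Fintype.card_coe, card_paths_nat]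
  simp only [Fintype.card_prod, Fintype.card_fin, Fintype.card_fun]
  ring

theorem size_real_bound (n r t : ℕ) (hn : 2 ≤ n) (hr : r + 1 ≤ n) (hrt : r ≤ t)
    (ht : (t : ℝ) ≤ Real.sqrt n + 1) :
    ((2 * n ^ 3 + r * n ^ 2 + r * n ^ (t + 1) + n ^ (r - 1) + 1 : ℕ) : ℝ) ≤
      (n : ℝ) ^ (Real.sqrt n + 4) := by
  have hnR : (2 : ℝ) ≤ n := by exact_mod_cast hn
  have hn1 : (1 : ℝ) ≤ n := by linarith
  have hn0 : (0 : ℝ) < n := by linarith
  set Y : ℝ := (n : ℝ) ^ Real.sqrt n with hY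
  have hs1 : 1 ≤ Real.sqrt n := Real.one_le_sqrt.2 hn1
  have hYn : (n : ℝ) ≤ Y := by
    calc (n : ℝ) = (n : ℝ) ^ (1 : ℝ) := (Real.rpow_one _).symm
      _ ≤ Y := Real.rpow_le_rpow_of_exponent_le hn1 hs1
  have e4 : (n : ℝ) ^ (Real.sqrt n + 4) = Y * n ^ 4 := by
    rw [Real.rpow_add hn0]
    norm_cast
  have h1 : (n : ℝ) ^ (t + 1) ≤ Y * n ^ 2 := by
    calc (n : ℝ) ^ (t + 1) = (n : ℝ) ^ ((t + 1 : ℕ) : ℝ) := (Real.rpow_natCast _ _).symm
      _ ≤ (n : ℝ) ^ (Real.sqrt n + 2) := by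
          refine Real.rpow_le_rpow_of_exponent_le hn1 ?_
          push_cast
          linarith
      _ = Y * n ^ 2 := by
          rw [Real.rpow_add hn0]
          norm_cast
  have h2 : (n : ℝ) ^ (r - 1) ≤ Y := by
    calc (n : ℝ) ^ (r - 1) = (n : ℝ) ^ ((r - 1 : ℕ) : ℝ) := (Real.rpow_natCast _ _).symm
      _ ≤ Y := by
          refine Real.rpow_le_rpow_of_exponent_le hn1 ?_
          rcases Nat.eq_zero_or_pos r with h0 | h0
          · subst h0
            simp
          · have : ((r - 1 : ℕ) : ℝ) = r - 1 := by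
              rw [Nat.cast_sub h0]; simp
            have h3 : (r : ℝ) ≤ t := by exact_mod_cast hrt
            linarith
  have h3 : (r : ℝ) ≤ n - 1 := by
    have : ((r + 1 : ℕ) : ℝ) ≤ n := by exact_mod_cast hr
    push_cast at this
    linarith
  have hr0 : (0 : ℝ) ≤ r := Nat.cast_nonneg r
  rw [e4]
  push_cast
  have h4 : (r : ℝ) * n ^ 2 ≤ (n - 1) * n ^ 2 := by gcongr
  have h5 : (r : ℝ) * n ^ (t + 1) ≤ (n - 1) * (Y * n ^ 2) := by gcongr
  have h6 : (0 : ℝ) ≤ n ^ 4 - n ^ 3 + n ^ 2 - 1 := by nlinarith [sq_nonneg ((n : ℝ) ^ 2 - n)]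
  have h7 : (n : ℝ) * (n ^ 4 - n ^ 3 + n ^ 2 - 1) ≤ Y * (n ^ 4 - n ^ 3 + n ^ 2 - 1) := by gcongr
  have h8 : (0 : ℝ) ≤ n ^ 5 - n ^ 4 - 2 * n ^ 3 + n ^ 2 - n - 1 := by
    have : (0 : ℝ) ≤ n ^ 3 * ((n - 2) * (n + 1)) := by
      have : (0 : ℝ) ≤ n - 2 := by linarith
      positivity
    nlinarith
  nlinarith

end Crest.Agent.R327
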